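import Mathlib

/-!
# Matrices with the symmetry of a function of `(|x|², t)`
-/

namespace Vale.Agent.P252

open Finset Matrix

variable {k : ℕ}

/-- The matrix `[[a I + b x xᵀ, c x], [c xᵀ, d]]`. -/
def blk (x : Fin k → ℝ) (a b c d : ℝ) : Matrix (Fin (k + 1)) (Fin (k + 1)) ℝ :=
  Matrix.of fun i j => Fin.lastCases (Fin.lastCases d (fun j' => c * x j') j)
    (fun i' => Fin.lastCases (c * x i')
      (fun j' => (if i' = j' then a else 0) + b * x i' * x j') j) i

@[simp] lemma blk_cc (x : Fin k → ℝ) (a b c d : ℝ) (i j : Fin k) :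
    blk x a b c d i.castSucc j.castSucc = (if i = j then a else 0) + b * x i * x j := by
  simp [blk]

@[simp] lemma blk_cl (x : Fin k → ℝ) (a b c d : ℝ) (i : Fin k) :
    blk x a b c d i.castSucc (Fin.last k) = c * x i := by simp [blk]

@[simp] lemma blk_lc (x : Fin k → ℝ) (a b c d : ℝ) (j : Fin k) :
    blk x a b c d (Fin.last k) j.castSucc = c * x j := by simp [blk]

@[simp] lemma blk_ll (x : Fin k → ℝ) (a b c d : ℝ) :
    blk x a b c d (Fin.last k) (Fin.last k) = d := by simp [blk]

lemma blk_mul_eq_one {x : Fin k → ℝ} {q a b c d a' b' c' d' : ℝ} (hq : ∑ i, x i ^ 2 = q)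
    (h1 : a * a' = 1) (h2 : a * b' + b * a' + b * b' * q + c * c' = 0)
    (h3 : a * c' + b * q * c' + c * d' = 0) (h4 : c * a' + c * b' * q + d * c' = 0)
    (h5 : c * c' * q + d * d' = 1) :
    blk x a b c d * blk x a' b' c' d' = 1 := by
  ext i j
  rw [Matrix.mul_apply, Fin.sum_univ_castSucc]
  induction i using Fin.lastCases with
  | last =>
    induction j using Fin.lastCases with
    | last =>
      simp only [blk_lc, blk_cl, blk_ll, one_apply_eq]
      have e : ∑ l, c * x l * (c' * x l) = c * c' * q := by
        rw [← hq, mul_sum]; exact sum_congr rfl fun l _ => by ring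
      rw [e]; exact h5
    | cast j =>
      simp only [blk_lc, blk_cc, blk_ll, one_apply_ne (Fin.castSucc_ne_last j).symm]
      have e : ∑ l, c * x l * ((if l = j then a' else 0) + b' * x l * x j) =
          c * a' * x j + c * b' * q * x j := by
        simp_rw [mul_add, sum_add_distrib, mul_ite, mul_zero]
        rw [sum_ite_eq' univ j, if_pos (mem_univ _), ← hq, mul_sum, sum_mul]
        congr 1
        · ring
        · exact sum_congr rfl fun l _ => by ring
      rw [e]; linear_combination (x j) * h4
  | cast i =>
    induction j using Fin.lastCases with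
    | last =>
      simp only [blk_cc, blk_cl, blk_ll, one_apply_ne (Fin.castSucc_ne_last i)]
      have e : ∑ l, ((if i = l then a else 0) + b * x i * x l) * (c' * x l) =
          a * c' * x i + b * q * c' * x i := by
        simp_rw [add_mul, sum_add_distrib, ite_mul, zero_mul]
        rw [sum_ite_eq univ i, if_pos (mem_univ _), ← hq, mul_sum, sum_mul, sum_mul]
        congr 1
        · ring
        · exact sum_congr rfl fun l _ => by ring
      rw [e]; linear_combination (x i) * h3
    | cast j =>
      simp only [blk_cc, blk_cl, blk_lc, one_apply, Fin.castSucc_inj]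
      have e : ∑ l, ((if i = l then a else 0) + b * x i * x l) *
          ((if l = j then a' else 0) + b' * x l * x j) =
          (if i = j then a * a' else 0) + a * b' * x i * x j + b * a' * x i * x j +
            b * b' * q * x i * x j := by
        simp_rw [add_mul, mul_add, sum_add_distrib, ite_mul, zero_mul, mul_ite, mul_zero]
        rw [sum_ite_eq univ i, sum_ite_eq univ i, sum_ite_eq' univ j]
        simp only [mem_univ, if_true]
        have : ∑ l, b * x i * x l * (b' * x l * x j) = b * b' * q * x i * x j := by
          rw [← hq, mul_sum, sum_mul, sum_mul]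
          exact sum_congr rfl fun l _ => by ring
        rw [this]
        ring
      rw [e]
      split_ifs with h
      · linear_combination h1 + (x i * x j) * h2
      · linear_combination (x i * x j) * h2

lemma sum_blk_mul_blk {x : Fin k → ℝ} {q : ℝ} (hq : ∑ i, x i ^ 2 = q)
    (a b c d α β γ δ : ℝ) :
    ∑ i, ∑ j, blk x a b c d i j * blk x α β γ δ i j =
      k * a * α + q * (a * β + α * b) + q ^ 2 * (b * β) + 2 * q * c * γ + d * δ := by
  simp only [Fin.sum_univ_castSucc, blk_cc, blk_cl, blk_lc, blk_ll]
  have e1 : ∀ i, ∑ j, ((if i = j then a else 0) + b * x i * x j) *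
      ((if i = j then α else 0) + β * x i * x j) =
      a * α + (a * β + α * b + b * β * q) * x i ^ 2 := fun i => by
    simp_rw [add_mul, mul_add, sum_add_distrib, ite_mul, zero_mul, mul_ite, mul_zero]
    have : ∑ l, b * x i * x l * (β * x i * x l) = b * β * q * x i ^ 2 := by
      rw [← hq, mul_sum, sum_mul]
      exact sum_congr rfl fun l _ => by ring
    rw [this]
    simp only [sum_ite_eq, mem_univ, if_true]
    ring
  have e2 : ∑ l, c * x l * (γ * x l) = c * γ * q := by
    rw [← hq, mul_sum]; exact sum_congr rfl fun l _ => by ring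
  simp only [sum_add_distrib, e1, e2]
  rw [← mul_sum, ← mul_sum, hq]
  simp
  ring

lemma det_blk {x : Fin k → ℝ} {q a b c d : ℝ} (hq : ∑ i, x i ^ 2 = q) (ha : a ≠ 0) (hd : d ≠ 0) :
    (blk x a b c d).det = d * a ^ k * (1 + (b - c ^ 2 / d) * q / a) := by
  have e : blk x a b c d = (fromBlocks
      (Matrix.of fun i j : Fin k => (if i = j then a else 0) + b * x i * x j)
      (Matrix.of fun (i : Fin k) (_ : Fin 1) => c * x i)
      (Matrix.of fun (_ : Fin 1) (j : Fin k) => c * x j)
      (d • (1 : Matrix (Fin 1) (Fin 1) ℝ))).reindex finSumFinEquiv finSumFinEquiv := by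
    ext i j
    obtain ⟨i, rfl⟩ := finSumFinEquiv.surjective i
    obtain ⟨j, rfl⟩ := finSumFinEquiv.surjective j
    rw [reindex_apply, submatrix_apply, Equiv.symm_apply_apply, Equiv.symm_apply_apply]
    rcases i with i | i <;> rcases j with j | j <;>
      simp only [fromBlocks_apply₁₁, fromBlocks_apply₁₂, fromBlocks_apply₂₁, fromBlocks_apply₂₂,
        finSumFinEquiv_apply_left, finSumFinEquiv_apply_right, of_apply]
    · exact blk_cc x a b c d i j
    · have : Fin.natAdd k j = Fin.last k := by ext; simp
      rw [this]; exact blk_cl x a b c d i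
    · have : Fin.natAdd k i = Fin.last k := by ext; simp
      rw [this]; exact blk_lc x a b c d j
    · have hi : Fin.natAdd k i = Fin.last k := by ext; simp
      have hj : Fin.natAdd k j = Fin.last k := by ext; simp
      rw [hi, hj, blk_ll, Subsingleton.elim i j]
      simp
  rw [e, det_reindex_self]
  let : Invertible (d • (1 : Matrix (Fin 1) (Fin 1) ℝ)) :=
    ⟨d⁻¹ • 1, by simp [smul_smul, hd], by simp [smul_smul, hd]⟩
  have hinv : ⅟(d • (1 : Matrix (Fin 1) (Fin 1) ℝ)) = d⁻¹ • 1 := rfl
  rw [det_fromBlocks₂₂, hinv]
  set v : Fin k → ℝ := fun i => (b - c ^ 2 / d) / a * x i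
  have e2 : (Matrix.of fun i j : Fin k => (if i = j then a else 0) + b * x i * x j) -
      (Matrix.of fun (i : Fin k) (_ : Fin 1) => c * x i) * (d⁻¹ • (1 : Matrix (Fin 1) (Fin 1) ℝ)) *
        (Matrix.of fun (_ : Fin 1) (j : Fin k) => c * x j) =
      a • ((1 : Matrix (Fin k) (Fin k) ℝ) +
        replicateCol (Fin 1) x * replicateRow (Fin 1) v) := by
    ext i j
    simp [Matrix.mul_apply, one_apply, v]
    split_ifs <;> field_simp <;> ring
  rw [e2, det_smul, det_smul, det_one, Fintype.card_fin, Fintype.card_fin,
    det_one_add_mul_comm, det_unique (A := (1 : Matrix (Fin 1) (Fin 1) ℝ) + _), Matrix.add_apply,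
    one_apply_eq, replicateRow_mul_replicateCol_apply]
  have e3 : v ⬝ᵥ x = (b - c ^ 2 / d) / a * q := by
    rw [← hq, mul_sum]
    exact sum_congr rfl fun l _ => by simp [v]; ring
  rw [e3]
  simp
  ring

lemma posDef_blk {x : Fin k → ℝ} {q a b c d : ℝ} (hq : ∑ i, x i ^ 2 = q) (ha : 0 < a)
    (hd : 0 < d) (hN : 0 < (a + b * q) * d - c ^ 2 * q) : (blk x a b c d).PosDef := by
  refine .of_dotProduct_mulVec_pos ?_ fun v hv => ?_
  · ext i j
    induction i using Fin.lastCases with
    | last =>
      induction j using Fin.lastCases with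
      | last => simp
      | cast j => simp
    | cast i =>
      induction j using Fin.lastCases with
      | last => simp
      | cast j =>
        simp [eq_comm (a := i)]
        ring
  · set S := ∑ i, x i * v i.castSucc with hS
    set V := ∑ i : Fin k, v i.castSucc ^ 2 with hV
    set τ := v (Fin.last k)
    have hform : star v ⬝ᵥ (blk x a b c d *ᵥ v) = a * V + b * S ^ 2 + 2 * c * S * τ + d * τ ^ 2 := by
      simp only [dotProduct, mulVec, Pi.star_apply, star_trivial, Fin.sum_univ_castSucc, blk_cc,
        blk_cl, blk_lc, blk_ll]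
      have e : ∀ i : Fin k, ∑ j : Fin k, ((if i = j then a else 0) + b * x i * x j) * v j.castSucc =
          a * v i.castSucc + b * x i * S := fun i => by
        simp_rw [add_mul, sum_add_distrib, ite_mul, zero_mul]
        simp only [sum_ite_eq, mem_univ, if_true, hS, mul_sum]
        congr 1
        exact sum_congr rfl fun l _ => by ring
      have e' : ∑ j : Fin k, c * x j * v j.castSucc = c * S := by
        rw [hS, mul_sum]; exact sum_congr rfl fun l _ => by ring
      simp only [e, e']
      have e'' : ∑ i : Fin k, v i.castSucc * (a * v i.castSucc + b * x i * S + c * x i * τ) =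
          a * V + b * S ^ 2 + c * S * τ := by
        calc _ = ∑ i : Fin k, (a * v i.castSucc ^ 2 +
              (b * S + c * τ) * (x i * v i.castSucc)) := sum_congr rfl fun l _ => by ring
          _ = _ := by rw [sum_add_distrib, ← mul_sum, ← mul_sum, ← hV, ← hS]; ring
      rw [e'']
      ring
    rw [hform]
    have hcs : S ^ 2 ≤ q * V := by
      rw [← hq]; exact sum_mul_sq_le_sq_mul_sq univ x fun i => v i.castSucc
    have hV0 : 0 ≤ V := sum_nonneg fun i _ => sq_nonneg _
    have hkey : d * (a * V + b * S ^ 2 + 2 * c * S * τ + d * τ ^ 2) =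
        a * d * V + (b * d - c ^ 2) * S ^ 2 + (c * S + d * τ) ^ 2 := by ring
    have hpos : 0 < a * d * V + (b * d - c ^ 2) * S ^ 2 + (c * S + d * τ) ^ 2 := by
      rcases hV0.eq_or_lt with h | h
      · have hS0 : S = 0 := by
          rw [← h, mul_zero] at hcs
          exact pow_eq_zero_iff two_ne_zero |>.1 (le_antisymm hcs (sq_nonneg _))
        have hz : ∀ i : Fin k, v i.castSucc = 0 := fun i =>
          pow_eq_zero_iff two_ne_zero |>.1
            ((sum_eq_zero_iff_of_nonneg fun j _ => sq_nonneg _).1 (hV.symm.trans h.symm) i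
              (mem_univ _))
        have hτ : τ ≠ 0 := fun h0 => hv <| funext fun i => by
          induction i using Fin.lastCases with
          | last => exact h0
          | cast j => exact hz j
        rw [hS0, ← h]
        have : 0 < (d * τ) ^ 2 := by positivity
        linarith
      · rcases le_or_gt 0 (b * d - c ^ 2) with hb | hb
        · have := mul_nonneg hb (sq_nonneg S)
          have := mul_pos (mul_pos ha hd) h
          nlinarith
        · have := mul_le_mul_of_nonpos_left hcs hb.le
          have := mul_pos hN h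
          nlinarith
    rw [← hkey] at hpos
    exact (mul_pos_iff_of_pos_left hd).1 hpos

end Vale.Agent.P252
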