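import Mathlib

namespace Vale.Agent.P252

open scoped ContDiff

/-- The partial derivative in the `i`-th coordinate direction of `ℝ^n`. -/
noncomputable def pd {n : ℕ} (i : Fin n) (f : (Fin n → ℝ) → ℝ) (x : Fin n → ℝ) : ℝ :=
  fderiv ℝ f x (Pi.single i 1)

/-- The Hessian matrix of a function on `ℝ^n`. -/
noncomputable def hess {n : ℕ} (f : (Fin n → ℝ) → ℝ) (x : Fin n → ℝ) :
    Matrix (Fin n) (Fin n) ℝ :=
  Matrix.of fun i j => pd i (fun y => pd j f y) x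

/-- The function `w = (det D²u)^(-(n+1)/(n+2))`. -/
noncomputable def affineW {n : ℕ} (u : (Fin n → ℝ) → ℝ) (x : Fin n → ℝ) : ℝ :=
  (hess u x).det ^ (-(((n : ℝ) + 1) / ((n : ℝ) + 2)))

/-- The affine maximal equation `∑ U^{ij} ∂_{ij} w = 0` at every point, where
`U^{ij} = det(D²u) · (D²u)⁻¹_{ij}`. -/
def IsAffineMaximal {n : ℕ} (u : (Fin n → ℝ) → ℝ) : Prop :=
  ∀ x : Fin n → ℝ,
    ∑ i, ∑ j, (hess u x).det * (hess u x)⁻¹ i j * hess (affineW u) x i j = 0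

/-- A quadratic polynomial on `ℝ^n`. -/
def IsQuadraticPoly {n : ℕ} (u : (Fin n → ℝ) → ℝ) : Prop :=
  ∃ (A : Matrix (Fin n) (Fin n) ℝ) (b : Fin n → ℝ) (c : ℝ),
    ∀ x : Fin n → ℝ, u x = (∑ i, ∑ j, A i j * x i * x j) + (∑ i, b i * x i) + c

end Vale.Agent.P252
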