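import Vale.Agent.P252.Germ

/-!
# The autonomous system, its global solutions and the invariant box
-/

namespace Vale.Agent.P252

open scoped ContDiff NNReal
open Set Metric

/-- Bounded globally Lipschitz vector fields have global integral curves. -/
lemma exists_global_solution {V : Type*} [NormedAddCommGroup V] [NormedSpace ℝ V] [CompleteSpace V]
    {v : V → V} {K L : ℝ≥0} (hv : LipschitzWith K v) (hb : ∀ x, ‖v x‖ ≤ L) (t₀ : ℝ) (x₀ : V) :
    ∃ y : ℝ → V, y t₀ = x₀ ∧ ∀ t, HasDerivAt y (v (y t)) t := by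
  have loc : ∀ n : ℕ, ∃ α : ℝ → V, α t₀ = x₀ ∧
      ∀ t ∈ Ioo (t₀ - ((n : ℝ) + 1)) (t₀ + ((n : ℝ) + 1)), HasDerivAt α (v (α t)) t := by
    intro n
    have hn : (0 : ℝ) < (n : ℝ) + 1 := by positivity
    have hmem : t₀ ∈ Icc (t₀ - ((n : ℝ) + 1)) (t₀ + ((n : ℝ) + 1)) := ⟨by linarith, by linarith⟩
    have hpl : IsPicardLindelof (fun _ => v) (⟨t₀, hmem⟩ : Icc (t₀ - ((n : ℝ) + 1))
        (t₀ + ((n : ℝ) + 1))) x₀ (L * ((n : ℝ≥0) + 1)) 0 L K :=
      IsPicardLindelof.of_time_independent (fun x _ => hb x) hv.lipschitzOnWith (by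
        simp)
    obtain ⟨α, h0, hα⟩ := hpl.exists_eq_forall_mem_Icc_hasDerivWithinAt₀
    exact ⟨α, h0, fun t ht => (hα t (Ioo_subset_Icc_self ht)).hasDerivAt
      (Icc_mem_nhds ht.1 ht.2)⟩
  choose α h0 hα using loc
  have agree : ∀ n m : ℕ, n ≤ m →
      EqOn (α n) (α m) (Ioo (t₀ - ((n : ℝ) + 1)) (t₀ + ((n : ℝ) + 1))) := by
    intro n m hnm
    have hnm' : (n : ℝ) ≤ m := by exact_mod_cast hnm
    have hn : (0 : ℝ) < (n : ℝ) + 1 := by positivity
    refine ODE_solution_unique_of_mem_Ioo (v := fun _ => v) (s := fun _ => univ) (K := K)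
      (fun t _ => hv.lipschitzOnWith) (t₀ := t₀) ⟨by linarith, by linarith⟩
      (fun t ht => ⟨hα n t ht, trivial⟩)
      (fun t ht => ⟨hα m t ⟨by linarith [ht.1], by linarith [ht.2]⟩, trivial⟩) ?_
    rw [h0, h0]
  refine ⟨fun t => α ⌈|t - t₀|⌉₊ t, ?_, fun t => ?_⟩
  · simp [h0]
  · set N := ⌈|t - t₀|⌉₊ + 1 with hN
    have hlt : |t - t₀| < (N : ℝ) := by
      have := Nat.le_ceil (|t - t₀|)
      rw [hN]; push_cast; linarith
    have ht : t ∈ Ioo (t₀ - ((N : ℝ) + 1)) (t₀ + ((N : ℝ) + 1)) := by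
      have := abs_lt.1 hlt
      exact ⟨by linarith, by linarith⟩
    have key : ∀ᶠ s in nhds t, α ⌈|s - t₀|⌉₊ s = α N s := by
      have hopen : IsOpen {s : ℝ | |s - t₀| < (N : ℝ)} := isOpen_lt (by fun_prop) continuous_const
      filter_upwards [hopen.mem_nhds hlt] with s hs
      have hle : ⌈|s - t₀|⌉₊ ≤ N := Nat.ceil_le.2 hs.le
      refine agree _ _ hle ?_
      have h1 := Nat.le_ceil (|s - t₀|)
      have h2 := abs_le.1 (le_refl |s - t₀|)
      exact ⟨by linarith, by linarith⟩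
    have e : α ⌈|t - t₀|⌉₊ t = α N t := key.self_of_nhds
    simp only [e]
    exact (hα N t ht).congr_of_eventuallyEq key

/-- The vector field in the variables `(g, e, m)`. -/
noncomputable def field (k : ℕ) (p : ℝ × ℝ × ℝ) : ℝ × ℝ × ℝ :=
  (p.1 * (1 + p.2.1 - p.1), p.2.1 * (p.1 + kap k * p.2.2 - k * (p.2.1 - 1)),
    p.2.2 * (1 + p.2.2 - ((k : ℝ) - 1) * p.2.1) + ((k : ℝ) + 2) * p.2.1 * p.1)

lemma contDiff_field (k : ℕ) : ContDiff ℝ ∞ (field k) := by
  unfold field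
  fun_prop

/-- Projection of a number on `[-B, B]`. -/
noncomputable def clamp (B x : ℝ) : ℝ := max (-B) (min B x)

lemma abs_clamp {B : ℝ} (hB : 0 ≤ B) (x : ℝ) : |clamp B x| ≤ B :=
  abs_le.2 ⟨le_max_left _ _, max_le (by linarith) (min_le_left _ _)⟩

lemma clamp_eq {B x : ℝ} (hx : |x| ≤ B) : clamp B x = x := by
  have := abs_le.1 hx
  rw [clamp, min_eq_right this.2, max_eq_right this.1]

/-- Coordinatewise projection on the cube of half-side `B`. -/
noncomputable def clamp3 (B : ℝ) (p : ℝ × ℝ × ℝ) : ℝ × ℝ × ℝ :=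
  (clamp B p.1, clamp B p.2.1, clamp B p.2.2)

lemma clamp3_eq {B : ℝ} {p : ℝ × ℝ × ℝ} (hp : ‖p‖ ≤ B) : clamp3 B p = p := by
  have h1 := (norm_fst_le p).trans hp
  have h2 := (norm_snd_le p).trans hp
  have h3 := (norm_fst_le p.2).trans h2
  have h4 := (norm_snd_le p.2).trans h2
  rw [Real.norm_eq_abs] at h1 h3 h4
  simp [clamp3, clamp_eq h1, clamp_eq h3, clamp_eq h4]

lemma lipschitzWith_clamp3 (B : ℝ) : ∃ K : ℝ≥0, LipschitzWith K (clamp3 B) := by
  have h : LipschitzWith 1 (clamp B) := (LipschitzWith.id.const_min B).const_max (-B)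
  exact ⟨_, (h.comp LipschitzWith.prod_fst).prodMk
    (((h.comp LipschitzWith.prod_fst).prodMk (h.comp LipschitzWith.prod_snd)).comp
      LipschitzWith.prod_snd)⟩

lemma exists_lipschitz_bounded_field (k : ℕ) {B : ℝ} (hB : 0 ≤ B) :
    ∃ K L : ℝ≥0, LipschitzWith K (fun p => field k (clamp3 B p)) ∧
      ∀ p, ‖field k (clamp3 B p)‖ ≤ L := by
  obtain ⟨K₁, hK₁⟩ := lipschitzWith_clamp3 B
  have hc : IsCompact (closedBall (0 : ℝ × ℝ × ℝ) B) := isCompact_closedBall _ _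
  have hmem : ∀ p, clamp3 B p ∈ closedBall (0 : ℝ × ℝ × ℝ) B := fun p => by
    rw [mem_closedBall_zero_iff]
    simp [Prod.norm_def, Real.norm_eq_abs, clamp3, abs_clamp hB]
  obtain ⟨K₂, hK₂⟩ := (((contDiff_field k).of_le (by simp)).locallyLipschitz.locallyLipschitzOn
    (s := closedBall (0 : ℝ × ℝ × ℝ) B)).exists_lipschitzOnWith_of_compact hc
  obtain ⟨L, hL⟩ := hc.exists_bound_of_continuousOn (contDiff_field k).continuous.continuousOn
  refine ⟨K₂ * K₁, L.toNNReal, ?_, fun p => (hL _ (hmem p)).trans (Real.le_coe_toNNReal L)⟩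
  exact lipschitzOnWith_univ.1 (hK₂.comp hK₁.lipschitzOnWith (fun p _ => hmem p))

/-- A finite family which satisfies `v' ≥ -C v` as long as it is nonnegative stays positive. -/
lemma pos_of_deriv_ge {ι : Type*} [Finite ι] (v v' : ι → ℝ → ℝ) (s₀ C : ℝ)
    (hd : ∀ i s, HasDerivAt (v i) (v' i s) s)
    (hineq : ∀ s, s₀ ≤ s → (∀ i, 0 ≤ v i s) → ∀ i, -C * v i s ≤ v' i s)
    (h0 : ∀ i, 0 < v i s₀) : ∀ s, s₀ ≤ s → ∀ i, 0 < v i s := by
  by_contra hcon
  push Not at hcon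
  obtain ⟨s₁, hs₁, i₁, hi₁⟩ := hcon
  set S := Ici s₀ ∩ ⋃ i, {s | v i s ≤ 0} with hS
  have hcont : ∀ i, Continuous (v i) := fun i =>
    continuous_iff_continuousAt.2 fun s => (hd i s).continuousAt
  have hclosed : IsClosed S :=
    isClosed_Ici.inter (isClosed_iUnion_of_finite fun i => isClosed_le (hcont i) continuous_const)
  have hne : S.Nonempty := ⟨s₁, hs₁, mem_iUnion.2 ⟨i₁, hi₁⟩⟩
  have hbdd : BddBelow S := ⟨s₀, fun s hs => hs.1⟩
  obtain ⟨hτ, hτ'⟩ := hclosed.csInf_mem hne hbdd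
  obtain ⟨i, hi⟩ := mem_iUnion.1 hτ'
  set τ := sInf S
  have hi : v i τ ≤ 0 := hi
  have hτ : s₀ ≤ τ := hτ
  have hlt : s₀ < τ := hτ.lt_of_ne fun e => by
    have := h0 i
    rw [e] at this
    linarith
  have hpos : ∀ s ∈ Ico s₀ τ, ∀ j, 0 < v j s := fun s hs j => by
    by_contra hneg
    exact (notMem_of_lt_csInf hs.2 hbdd) ⟨hs.1, mem_iUnion.2 ⟨j, not_lt.1 hneg⟩⟩
  have hd' : ∀ s, HasDerivAt (fun x => Real.exp (C * x) * v i x)
      (Real.exp (C * s) * (v' i s + C * v i s)) s := fun s => by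
    refine ((((hasDerivAt_id' s).const_mul C).exp).mul (hd i s)).congr_deriv ?_
    ring
  have hmono : MonotoneOn (fun x => Real.exp (C * x) * v i x) (Icc s₀ τ) := by
    refine monotoneOn_of_hasDerivWithinAt_nonneg (convex_Icc _ _)
      (fun x _ => (hd' x).continuousAt.continuousWithinAt)
      (fun x _ => (hd' x).hasDerivWithinAt) fun x hx => ?_
    rw [interior_Icc] at hx
    refine mul_nonneg (Real.exp_pos _).le ?_
    linarith [hineq x hx.1.le (fun j => (hpos x ⟨hx.1.le, hx.2⟩ j).le) i]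
  have h1 := hmono (left_mem_Icc.2 hτ) (right_mem_Icc.2 hτ) hτ
  have h2 : Real.exp (C * τ) * v i τ ≤ 0 :=
    mul_nonpos_of_nonneg_of_nonpos (Real.exp_pos _).le hi
  have h3 : 0 < Real.exp (C * s₀) * v i s₀ := mul_pos (Real.exp_pos _) (h0 i)
  simp only at h1
  linarith

/-- The upper value of `m` in the box. -/
noncomputable def mTop (k : ℕ) : ℝ := (5 * (k : ℝ) / 2 - 9 / 2) / kap k

/-- The slope `Z` of the box. -/
noncomputable def zTop (k : ℕ) : ℝ := (1 + mTop k) * (2 / 7)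

/-- Six quantities whose positivity defines the box. -/
noncomputable def barrier (k : ℕ) (p : ℝ × ℝ × ℝ) : Fin 6 → ℝ :=
  ![p.1, p.2.1, p.2.2, 9 / 2 - p.1, 7 / 2 - p.2.1, zTop k * p.2.1 - 1 - p.2.2]

lemma top_facts {k : ℕ} (hk : 9 ≤ k) :
    9 / 2 + kap k * mTop k = 5 * (k : ℝ) / 2 ∧ 1 < zTop k ∧ zTop k ≤ (k : ℝ) ∧
      mTop k * (1 + mTop k - ((k : ℝ) - 1) * (7 / 2)) + ((k : ℝ) + 2) * (63 / 4) ≤ 0 := by
  have hk' : (9 : ℝ) ≤ k := by exact_mod_cast hk
  have hκ := kap_pos k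
  have hκ1 : 1 ≤ kap k := by
    unfold kap; rw [le_div_iff₀ (by positivity)]; linarith
  refine ⟨by unfold mTop; field_simp; ring, ?_, ?_, ?_⟩
  · have : 5 / 2 < mTop k := by
      rw [mTop, lt_div_iff₀ hκ]
      nlinarith [kap_le k]
    unfold zTop; linarith
  · have : mTop k ≤ 5 * (k : ℝ) / 2 := by
      rw [mTop, div_le_iff₀ hκ]
      nlinarith
    unfold zTop; linarith
  · have e : mTop k * (1 + mTop k - ((k : ℝ) - 1) * (7 / 2)) + ((k : ℝ) + 2) * (63 / 4) =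
        ((k : ℝ) + 2) * ((k : ℝ) - 9) * (-5 / 2 * (k : ℝ) ^ 2 - 16 * k - 27 / 2) /
          ((k : ℝ) + 3) ^ 2 := by
      unfold mTop kap
      field_simp
      ring
    rw [e]
    refine div_nonpos_of_nonpos_of_nonneg ?_ (sq_nonneg _)
    refine mul_nonpos_of_nonneg_of_nonpos (mul_nonneg (by positivity) (by linarith)) ?_
    nlinarith

lemma box_norm_le {k : ℕ} (hk : 9 ≤ k) {p : ℝ × ℝ × ℝ} (hp : ∀ i, 0 ≤ barrier k p i) :
    ‖p‖ ≤ 4 * (k : ℝ) := by
  obtain ⟨-, hZ1, hZ2, -⟩ := top_facts hk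
  have hk' : (9 : ℝ) ≤ k := by exact_mod_cast hk
  have h0 := hp 0; have h1 := hp 1; have h2 := hp 2
  have h3 := hp 3; have h4 := hp 4; have h5 := hp 5
  simp [barrier] at h0 h1 h2 h3 h4 h5
  have : zTop k * p.2.1 ≤ (k : ℝ) * (7 / 2) := mul_le_mul hZ2 (by linarith) h1 (by linarith)
  simp only [Prod.norm_def, Real.norm_eq_abs, max_le_iff]
  refine ⟨?_, ?_, ?_⟩ <;> rw [abs_of_nonneg (by assumption)] <;> linarith

/-- The derivatives of the six quantities along the field. -/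
noncomputable def barrier' (k : ℕ) (p : ℝ × ℝ × ℝ) : Fin 6 → ℝ :=
  ![(field k p).1, (field k p).2.1, (field k p).2.2, -(field k p).1, -(field k p).2.1,
    zTop k * (field k p).2.1 - (field k p).2.2]

lemma barrier_ineq {k : ℕ} (hk : 9 ≤ k) {p : ℝ × ℝ × ℝ} (hp : ∀ i, 0 ≤ barrier k p i) (i : Fin 6) :
    -(16 * (k : ℝ)) * barrier k p i ≤ barrier' k p i := by
  obtain ⟨hX, hZ1, hZ2, hN⟩ := top_facts hk
  have hk' : (9 : ℝ) ≤ k := by exact_mod_cast hk
  have hκ := kap_pos k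
  have hκ2 := kap_le k
  obtain ⟨g, e, m⟩ := p
  have hg := hp 0; have he := hp 1; have hm := hp 2
  have h1 := hp 3; have h2 := hp 4; have h3 := hp 5
  simp [barrier] at hg he hm h1 h2 h3
  have hZdef : mTop k = 7 / 2 * zTop k - 1 := by unfold zTop; ring
  rw [hZdef] at hX hN
  have hκdef : (kap k - 1) * ((k : ℝ) + 2) = 1 := by
    unfold kap; field_simp; ring
  have hκ1 : 0 ≤ kap k - 1 := by
    by_contra h
    have := mul_neg_of_neg_of_pos (not_le.1 h) (show (0 : ℝ) < (k : ℝ) + 2 by linarith)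
    linarith
  have hκZ : (kap k - 1) * zTop k ≤ 1 :=
    (mul_le_mul_of_nonneg_left (show zTop k ≤ (k : ℝ) + 2 by linarith) hκ1).trans_eq hκdef
  have hke : (k : ℝ) * e ≤ (k : ℝ) * (7 / 2) := mul_le_mul_of_nonneg_left h2 (by linarith)
  have hκm : 0 ≤ kap k * m := mul_nonneg hκ.le hm
  have hh3 : 0 ≤ zTop k * e - 1 - m := by linarith
  have hkZ : kap k * zTop k ≤ 2 * k := mul_le_mul hκ2 hZ2 (by linarith) (by norm_num)
  fin_cases i <;> simp [barrier, barrier', field]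
  · linarith [mul_nonneg hg (show 0 ≤ 16 * (k : ℝ) + (1 + e - g) by linarith)]
  · linarith [mul_nonneg he
      (show 0 ≤ 16 * (k : ℝ) + (g + kap k * m - k * (e - 1)) by linarith)]
  · linarith [mul_nonneg hm (show 0 ≤ 16 * (k : ℝ) + (1 + m - ((k : ℝ) - 1) * e) by linarith),
      mul_nonneg (mul_nonneg (show (0 : ℝ) ≤ (k : ℝ) + 2 by linarith) he) hg]
  · linarith [mul_nonneg hg (show 0 ≤ 7 / 2 - e by linarith),
      mul_nonneg (show 0 ≤ 9 / 2 - g by linarith) (show 0 ≤ 16 * (k : ℝ) - g by linarith)]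
  · -- the face `e = 7/2`
    have key : -(e * (g + kap k * m - k * (e - 1))) = e * (9 / 2 - g) +
        kap k * e * (zTop k * e - 1 - m) +
          (7 / 2 - e) * (e * (kap k * zTop k - (k : ℝ))) + 0 := by
      linear_combination (-e) * hX
    have hc : e * (kap k * zTop k - (k : ℝ)) ≥ -(7 / 2 * (k : ℝ)) := by
      have := mul_nonneg he (mul_nonneg hκ.le (show 0 ≤ zTop k by linarith))
      linarith
    linarith [mul_nonneg he (show 0 ≤ 9 / 2 - g by linarith),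
      mul_nonneg (mul_nonneg hκ.le he) hh3,
      mul_nonneg (show 0 ≤ 7 / 2 - e by linarith)
        (show 0 ≤ 16 * (k : ℝ) + e * (kap k * zTop k - (k : ℝ)) by linarith)]
  · -- the slanted face
    set Z := zTop k
    set c₀ := Z * (Z * (7 / 2) - 1) - ((k : ℝ) - 1) * (Z * (7 / 2) - 1) +
      ((k : ℝ) + 2) * (9 / 2) - Z * (9 / 2 + kap k * (Z * (7 / 2) - 1) - k * (7 / 2 - 1))
      with hc₀def
    have hc₀ : 7 / 2 * c₀ ≤ 0 := by
      have : 7 / 2 * c₀ = (7 / 2 * Z - 1) *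
          (1 + (7 / 2 * Z - 1) - ((k : ℝ) - 1) * (7 / 2)) + ((k : ℝ) + 2) * (63 / 4) := by
        rw [hc₀def]
        linear_combination (-(7 / 2) * Z) * hX
      linarith
    have ha : 0 ≤ Z * (1 - (kap k - 1) * Z) := mul_nonneg (by linarith) (by linarith)
    have key : Z * (e * (g + kap k * m - k * (e - 1))) -
        (m * (1 + m - ((k : ℝ) - 1) * e) + ((k : ℝ) + 2) * e * g) =
        e * (Z * (1 - (kap k - 1) * Z) * (7 / 2 - e) + ((k : ℝ) + 2 - Z) * (9 / 2 - g) - c₀) +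
          (Z * e - 1 - m) * (m - ((k : ℝ) - 1) * e - (kap k - 1) * Z * e) := by
      rw [hc₀def]
      ring
    have q1 : 0 ≤ e * (Z * (1 - (kap k - 1) * Z) * (7 / 2 - e) +
        ((k : ℝ) + 2 - Z) * (9 / 2 - g) - c₀) := by
      have := mul_nonneg ha (show 0 ≤ 7 / 2 - e by linarith)
      have := mul_nonneg (show 0 ≤ (k : ℝ) + 2 - Z by linarith) (show 0 ≤ 9 / 2 - g by linarith)
      exact mul_nonneg he (by linarith)
    have q2 : 0 ≤ 16 * (k : ℝ) + (m - ((k : ℝ) - 1) * e - (kap k - 1) * Z * e) := by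
      have := mul_le_mul_of_nonneg_right hκZ he
      linarith
    linarith [mul_nonneg hh3 q2]

end Vale.Agent.P252
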