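import Vale.Agent.P252.Series

/-!
# The germ of the profile at the origin
-/

namespace Vale.Agent.P252

open scoped ContDiff
open Finset

/-- `κ = 1/θ = (k+3)/(k+2)`. -/
noncomputable def kap (k : ℕ) : ℝ := ((k : ℝ) + 3) / ((k : ℝ) + 2)

/-- The starting value of the germ. -/
noncomputable def alpha (k : ℕ) : ℝ := 1 / (32 * ((k : ℝ) + 3))

/-- The uniform bound on the coefficients. -/
noncomputable def bigK (k : ℕ) : ℝ := 1 / (4 * ((k : ℝ) + 3))

/-- The coefficients `(G_j, η_j, M_j)`. -/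
noncomputable def co (k : ℕ) : ℕ → ℝ × ℝ × ℝ
  | 0 =>
    (alpha k, (alpha k + kap k * (((k : ℝ) + 2) / k * alpha k)) / ((k : ℝ) + 2),
      ((k : ℝ) + 2) / k * alpha k)
  | j + 1 =>
    let a := (∑ i : Fin (j + 1),
      (co k i).1 * ((co k (j - i)).2.1 - (co k (j - i)).1)) / ((j : ℝ) + 1)
    let c := (((k : ℝ) + 2) * a +
      2 * (∑ i : Fin (j + 1),
        (co k i).2.2 * ((co k (j - i)).2.2 - ((k : ℝ) - 1) * (co k (j - i)).2.1)) +
      2 * ((k : ℝ) + 2) * (∑ i : Fin (j + 1), (co k i).2.1 * (co k (j - i)).1)) /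
        (2 * ((j : ℝ) + 1) + k)
    let b := (a + kap k * c +
      2 * (∑ i : Fin (j + 1), (co k i).2.1 *
        ((co k (j - i)).1 + kap k * (co k (j - i)).2.2 - k * (co k (j - i)).2.1))) /
        (2 * ((j : ℝ) + 1) + 2 + k)
    (a, b, c)
termination_by n => n
decreasing_by all_goals omega

/-- Coefficients of `G`. -/
noncomputable def cG (k j : ℕ) : ℝ := (co k j).1

/-- Coefficients of `η`. -/
noncomputable def cH (k j : ℕ) : ℝ := (co k j).2.1

/-- Coefficients of `M`. -/
noncomputable def cM (k j : ℕ) : ℝ := (co k j).2.2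

lemma cG_zero (k : ℕ) : cG k 0 = alpha k := by rw [cG, co]

lemma cM_zero (k : ℕ) : cM k 0 = ((k : ℝ) + 2) / k * alpha k := by rw [cM, co]

lemma cH_zero (k : ℕ) :
    cH k 0 = (alpha k + kap k * (((k : ℝ) + 2) / k * alpha k)) / ((k : ℝ) + 2) := by rw [cH, co]

lemma cG_succ (k j : ℕ) :
    cG k (j + 1) = conv (cG k) (cH k + (-1 : ℝ) • cG k) j / ((j : ℝ) + 1) := by
  rw [cG, co]
  dsimp only
  rw [Fin.sum_univ_eq_sum_range fun i => (co k i).1 * ((co k (j - i)).2.1 - (co k (j - i)).1)]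
  unfold conv cG cH
  congr 1
  refine sum_congr rfl fun i _ => ?_
  simp only [Pi.add_apply, Pi.smul_apply, smul_eq_mul]
  ring

lemma cM_succ (k j : ℕ) :
    cM k (j + 1) = (((k : ℝ) + 2) * cG k (j + 1) +
      2 * conv (cM k) (cM k + (-((k : ℝ) - 1)) • cH k) j +
      2 * ((k : ℝ) + 2) * conv (cH k) (cG k) j) / (2 * ((j : ℝ) + 1) + k) := by
  rw [cM, cG, co]
  dsimp only
  rw [Fin.sum_univ_eq_sum_range fun i =>
      (co k i).2.2 * ((co k (j - i)).2.2 - ((k : ℝ) - 1) * (co k (j - i)).2.1),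
    Fin.sum_univ_eq_sum_range fun i => (co k i).2.1 * (co k (j - i)).1]
  unfold conv cG cH cM
  congr 4
  refine sum_congr rfl fun i _ => ?_
  simp only [Pi.add_apply, Pi.smul_apply, smul_eq_mul]
  ring

lemma cH_succ (k j : ℕ) :
    cH k (j + 1) = (cG k (j + 1) + kap k * cM k (j + 1) +
      2 * conv (cH k) (cG k + kap k • cM k + (-(k : ℝ)) • cH k) j) /
        (2 * ((j : ℝ) + 1) + 2 + k) := by
  rw [cH, cM, cG, co]
  dsimp only
  rw [Fin.sum_univ_eq_sum_range fun i => (co k i).2.1 *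
      ((co k (j - i)).1 + kap k * (co k (j - i)).2.2 - k * (co k (j - i)).2.1)]
  unfold conv cG cH cM
  congr 3
  refine sum_congr rfl fun i _ => ?_
  simp only [Pi.add_apply, Pi.smul_apply, smul_eq_mul]
  ring

lemma kap_pos (k : ℕ) : 0 < kap k := by unfold kap; positivity

lemma kap_le (k : ℕ) : kap k ≤ 2 := by
  unfold kap
  rw [div_le_iff₀ (by positivity)]
  have : (0 : ℝ) ≤ k := Nat.cast_nonneg k
  linarith

lemma abs_conv_le {a b : ℕ → ℝ} {A B : ℝ} {j : ℕ} (hA : 0 ≤ A)
    (ha : ∀ i ≤ j, |a i| ≤ A) (hb : ∀ i ≤ j, |b i| ≤ B) :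
    |conv a b j| ≤ ((j : ℝ) + 1) * (A * B) := by
  refine (abs_sum_le_sum_abs _ _).trans ?_
  refine (sum_le_card_nsmul _ _ (A * B) fun i hi => ?_).trans_eq (by simp)
  rw [abs_mul]
  exact mul_le_mul (ha i (Finset.mem_range_succ_iff.1 hi)) (hb _ (Nat.sub_le j i))
    (abs_nonneg _) hA

lemma co_bound {k : ℕ} (hk : 9 ≤ k) (j : ℕ) :
    |cG k j| ≤ bigK k / 4 ∧ |cH k j| ≤ bigK k ∧ |cM k j| ≤ bigK k := by
  have hk' : (9 : ℝ) ≤ k := by exact_mod_cast hk
  have hK0 : 0 < bigK k := by unfold bigK; positivity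
  have hK : bigK k * (4 * ((k : ℝ) + 3)) = 1 := by
    unfold bigK; field_simp
  have hκ0 := kap_pos k
  have hκ := kap_le k
  induction j using Nat.strong_induction_on with
  | _ j ih =>
    cases j with
    | zero =>
      have hα : alpha k = bigK k / 8 := by unfold alpha bigK; field_simp; ring
      have hc : ((k : ℝ) + 2) / k ≤ 2 := by rw [div_le_iff₀ (by positivity)]; linarith
      have hc0 : 0 ≤ ((k : ℝ) + 2) / k := by positivity
      have hm : ((k : ℝ) + 2) / k * alpha k ≤ bigK k / 4 := by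
        rw [hα]; nlinarith
      have hm0 : 0 ≤ ((k : ℝ) + 2) / k * alpha k := by rw [hα]; positivity
      refine ⟨?_, ?_, ?_⟩
      · rw [cG_zero, hα, abs_of_pos (by positivity)]; linarith
      · rw [cH_zero, abs_of_nonneg (by rw [hα] at hm0 ⊢; positivity),
          div_le_iff₀ (by positivity)]
        nlinarith
      · rw [cM_zero, abs_of_nonneg hm0]; linarith
    | succ j =>
      have hG : ∀ i ≤ j, |cG k i| ≤ bigK k / 4 := fun i hi => (ih i (by omega)).1
      have hH : ∀ i ≤ j, |cH k i| ≤ bigK k := fun i hi => (ih i (by omega)).2.1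
      have hM : ∀ i ≤ j, |cM k i| ≤ bigK k := fun i hi => (ih i (by omega)).2.2
      have hj : (0 : ℝ) ≤ j := Nat.cast_nonneg j
      have c1 := abs_conv_le (j := j) (by positivity) hG
        (b := cH k + (-1 : ℝ) • cG k) (B := 2 * bigK k) (fun i hi => by
          have := abs_le.1 (hG i hi); have := abs_le.1 (hH i hi)
          simp only [Pi.add_apply, Pi.smul_apply, smul_eq_mul]
          rw [abs_le]; constructor <;> linarith)
      have c2 := abs_conv_le (j := j) (by positivity) hM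
        (b := cM k + (-((k : ℝ) - 1)) • cH k) (B := (k : ℝ) * bigK k) (fun i hi => by
          have := abs_le.1 (hM i hi); have := abs_le.1 (hH i hi)
          simp only [Pi.add_apply, Pi.smul_apply, smul_eq_mul]
          rw [abs_le]; constructor <;> nlinarith)
      have c3 := abs_conv_le (j := j) (by positivity) hH (b := cG k) (B := bigK k / 4) hG
      have c4 := abs_conv_le (j := j) (by positivity) hH
        (b := cG k + kap k • cM k + (-(k : ℝ)) • cH k) (B := ((k : ℝ) + 3) * bigK k)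
        (fun i hi => by
          have := abs_le.1 (hM i hi); have := abs_le.1 (hH i hi); have := abs_le.1 (hG i hi)
          simp only [Pi.add_apply, Pi.smul_apply, smul_eq_mul]
          rw [abs_le]; constructor <;> nlinarith)
      have hG1 : |cG k (j + 1)| ≤ bigK k / 4 := by
        rw [cG_succ, abs_div, abs_of_pos (by positivity : (0 : ℝ) < (j : ℝ) + 1),
          div_le_iff₀ (by positivity)]
        refine c1.trans ?_
        rw [mul_comm (bigK k / 4) ((j : ℝ) + 1)]
        refine mul_le_mul_of_nonneg_left ?_ (by positivity)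
        nlinarith
      have hM1 : |cM k (j + 1)| ≤ bigK k := by
        rw [cM_succ, abs_div, abs_of_pos (by positivity : (0 : ℝ) < 2 * ((j : ℝ) + 1) + k),
          div_le_iff₀ (by positivity)]
        have h1 : |((k : ℝ) + 2) * cG k (j + 1)| ≤ ((k : ℝ) + 2) * (bigK k / 4) := by
          rw [abs_mul, abs_of_pos (by positivity : (0 : ℝ) < (k : ℝ) + 2)]
          exact mul_le_mul_of_nonneg_left hG1 (by positivity)
        refine (abs_add_three _ _ _).trans ?_
        rw [abs_mul (2 : ℝ), abs_mul (2 * ((k : ℝ) + 2)), abs_of_pos (zero_lt_two' ℝ),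
          abs_of_pos (by positivity : (0 : ℝ) < 2 * ((k : ℝ) + 2))]
        have h2 : 2 * ((k : ℝ) * bigK k) + ((k : ℝ) + 2) * bigK k / 2 ≤ 1 := by nlinarith
        have h3 : 2 * |conv (cM k) (cM k + (-((k : ℝ) - 1)) • cH k) j| +
            2 * ((k : ℝ) + 2) * |conv (cH k) (cG k) j| ≤ ((j : ℝ) + 1) * bigK k := by
          calc _ ≤ 2 * (((j : ℝ) + 1) * (bigK k * ((k : ℝ) * bigK k))) +
              2 * ((k : ℝ) + 2) * (((j : ℝ) + 1) * (bigK k * (bigK k / 4))) := by gcongr
            _ = ((j : ℝ) + 1) * bigK k *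
                (2 * ((k : ℝ) * bigK k) + ((k : ℝ) + 2) * bigK k / 2) := by ring
            _ ≤ _ := mul_le_of_le_one_right (by positivity) h2
        nlinarith
      refine ⟨hG1, ?_, hM1⟩
      rw [cH_succ, abs_div, abs_of_pos (by positivity : (0 : ℝ) < 2 * ((j : ℝ) + 1) + 2 + k),
        div_le_iff₀ (by positivity)]
      refine (abs_add_three _ _ _).trans ?_
      rw [abs_mul (kap k), abs_mul (2 : ℝ), abs_of_pos (zero_lt_two' ℝ), abs_of_pos hκ0]
      have h1 : kap k * |cM k (j + 1)| ≤ 2 * bigK k :=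
        mul_le_mul hκ hM1 (abs_nonneg _) (by norm_num)
      have h3 : 2 * |conv (cH k) (cG k + kap k • cM k + (-(k : ℝ)) • cH k) j| ≤
          ((j : ℝ) + 1) * bigK k := by
        calc _ ≤ 2 * (((j : ℝ) + 1) * (bigK k * (((k : ℝ) + 3) * bigK k))) := by gcongr
          _ = ((j : ℝ) + 1) * bigK k * (bigK k * (4 * ((k : ℝ) + 3))) / 2 := by ring
          _ ≤ _ := by rw [hK]; nlinarith
      nlinarith

lemma PB_of_bound {a : ℕ → ℝ} {C : ℝ} (hC : 0 ≤ C) (h : ∀ j, |a j| ≤ C) : PB a :=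
  ⟨C, 0, hC, fun j => by simpa using h j⟩

lemma PB_cG {k : ℕ} (hk : 9 ≤ k) : PB (cG k) :=
  PB_of_bound (C := bigK k / 4) (by unfold bigK; positivity) fun j => (co_bound hk j).1

lemma PB_cH {k : ℕ} (hk : 9 ≤ k) : PB (cH k) :=
  PB_of_bound (C := bigK k) (by unfold bigK; positivity) fun j => (co_bound hk j).2.1

lemma PB_cM {k : ℕ} (hk : 9 ≤ k) : PB (cM k) :=
  PB_of_bound (C := bigK k) (by unfold bigK; positivity) fun j => (co_bound hk j).2.2

lemma germ_G {k : ℕ} (hk : 9 ≤ k) {x : ℝ} (hx : |x| < 1) :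
    ps (dcoef (cG k)) x = ps (cG k) x * (ps (cH k) x - ps (cG k) x) := by
  have e : dcoef (cG k) = conv (cG k) (cH k + (-1 : ℝ) • cG k) := by
    funext j
    rw [dcoef, cG_succ]
    field_simp
  rw [e, ps_mul (PB_cG hk) ((PB_cH hk).add ((PB_cG hk).smul _)) hx,
    ps_add (PB_cH hk) ((PB_cG hk).smul _) hx, ps_smul]
  ring

lemma germ_H {k : ℕ} (hk : 9 ≤ k) {x : ℝ} (hx : |x| < 1) :
    2 * ps (cH k) x + 2 * x * ps (dcoef (cH k)) x =
      (1 + 2 * x * ps (cH k) x) * (ps (cG k) x + kap k * ps (cM k) x - k * ps (cH k) x) := by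
  have hG := PB_cG hk
  have hH := PB_cH hk
  have hM := PB_cM hk
  have hR : PB (cG k + kap k • cM k + (-(k : ℝ)) • cH k) := (hG.add (hM.smul _)).add (hH.smul _)
  have e : (2 : ℝ) • cH k + (2 : ℝ) • mulX (dcoef (cH k)) =
      (cG k + kap k • cM k + (-(k : ℝ)) • cH k) +
        (2 : ℝ) • mulX (conv (cH k) (cG k + kap k • cM k + (-(k : ℝ)) • cH k)) := by
    funext j
    cases j with
    | zero =>
      simp only [Pi.add_apply, Pi.smul_apply, smul_eq_mul, mulX, cH_zero, cM_zero, cG_zero]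
      field_simp
      ring
    | succ i =>
      simp only [Pi.add_apply, Pi.smul_apply, smul_eq_mul, mulX, dcoef]
      rw [cH_succ]
      field_simp
      ring
  have := congrArg (fun a => ps a x) e
  rw [ps_add (hH.smul _) (hH.dcoef.mulX.smul _) hx, ps_smul, ps_smul, ps_mulX hH.dcoef hx,
    ps_add hR ((hH.conv hR).mulX.smul _) hx, ps_smul, ps_mulX (hH.conv hR) hx, ps_mul hH hR hx,
    ps_add (hG.add (hM.smul _)) (hH.smul _) hx, ps_add hG (hM.smul _) hx, ps_smul, ps_smul] at this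
  linear_combination this

lemma germ_M {k : ℕ} (hk : 9 ≤ k) {x : ℝ} (hx : |x| < 1) :
    2 * x * ps (dcoef (cM k)) x =
      ps (cM k) x * (-(k : ℝ) + 2 * x * (ps (cM k) x - ((k : ℝ) - 1) * ps (cH k) x)) +
        ((k : ℝ) + 2) * (1 + 2 * x * ps (cH k) x) * ps (cG k) x := by
  have hk0 : (k : ℝ) ≠ 0 := by
    have : (9 : ℝ) ≤ k := by exact_mod_cast hk
    linarith
  have hG := PB_cG hk
  have hH := PB_cH hk
  have hM := PB_cM hk
  have hR : PB (cM k + (-((k : ℝ) - 1)) • cH k) := hM.add (hH.smul _)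
  have e : (k : ℝ) • cM k + (2 : ℝ) • mulX (dcoef (cM k)) =
      ((k : ℝ) + 2) • cG k + (2 : ℝ) • mulX (conv (cM k) (cM k + (-((k : ℝ) - 1)) • cH k)) +
        (2 * ((k : ℝ) + 2)) • mulX (conv (cH k) (cG k)) := by
    funext j
    cases j with
    | zero =>
      simp only [Pi.add_apply, Pi.smul_apply, smul_eq_mul, mulX, cM_zero, cG_zero]
      field_simp
      ring
    | succ i =>
      simp only [Pi.add_apply, Pi.smul_apply, smul_eq_mul, mulX, dcoef]
      rw [cM_succ]
      field_simp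
      ring
  have := congrArg (fun a => ps a x) e
  rw [ps_add (hM.smul _) (hM.dcoef.mulX.smul _) hx, ps_smul, ps_smul, ps_mulX hM.dcoef hx,
    ps_add ((hG.smul _).add ((hM.conv hR).mulX.smul _)) ((hH.conv hG).mulX.smul _) hx,
    ps_add (hG.smul _) ((hM.conv hR).mulX.smul _) hx, ps_smul, ps_smul, ps_smul,
    ps_mulX (hM.conv hR) hx, ps_mulX (hH.conv hG) hx, ps_mul hM hR hx, ps_mul hH hG hx,
    ps_add hM (hH.smul _) hx, ps_smul] at this
  linear_combination this

end Vale.Agent.P252
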