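import Vale.Agent.P252.Flow

/-!
# The smooth global profile
-/

namespace Vale.Agent.P252

open scoped ContDiff NNReal Topology
open Set Filter Metric

/-- A smooth profile on a neighbourhood of `[0, ∞)`. Here `q = r²`, `G = (log F)'`,
`1 + 2qH` is the elasticity of `f'`, and `M = -W'/W`. -/
structure Profile (k : ℕ) where
  δ : ℝ
  δ_pos : 0 < δ
  G : ℝ → ℝ
  H : ℝ → ℝ
  M : ℝ → ℝ
  smG : ContDiffOn ℝ ∞ G (Ioi (-δ))
  smH : ContDiffOn ℝ ∞ H (Ioi (-δ))
  smM : ContDiffOn ℝ ∞ M (Ioi (-δ))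
  G_pos : ∀ q, -δ < q → 0 < G q
  E_pos : ∀ q, -δ < q → 0 < 1 + 2 * q * H q
  eqG : ∀ q, -δ < q → deriv G q = G q * (H q - G q)
  eqH : ∀ q, -δ < q → 2 * H q + 2 * q * deriv H q =
    (1 + 2 * q * H q) * (G q + kap k * M q - k * H q)
  eqM : ∀ q, -δ < q → 2 * q * deriv M q =
    M q * (-(k : ℝ) + 2 * q * (M q - ((k : ℝ) - 1) * H q)) +
      ((k : ℝ) + 2) * (1 + 2 * q * H q) * G q

/-- The germ in logarithmic variables. -/
noncomputable def germCurve (k : ℕ) (s : ℝ) : ℝ × ℝ × ℝ :=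
  (2 * Real.exp (2 * s) * ps (cG k) (Real.exp (2 * s)),
    1 + 2 * Real.exp (2 * s) * ps (cH k) (Real.exp (2 * s)),
    2 * Real.exp (2 * s) * ps (cM k) (Real.exp (2 * s)))

lemma hasDerivAt_germCurve {k : ℕ} (hk : 9 ≤ k) {s : ℝ} (hs : s < 0) :
    HasDerivAt (germCurve k) (field k (germCurve k s)) s := by
  set x := Real.exp (2 * s) with hxdef
  have hx : |x| < 1 := by
    rw [abs_of_pos (Real.exp_pos _)]
    exact Real.exp_lt_one_iff.2 (by linarith)
  have hexp : HasDerivAt (fun t : ℝ => Real.exp (2 * t)) (2 * x) s := by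
    refine (((hasDerivAt_id' s).const_mul (2 : ℝ)).exp).congr_deriv ?_
    rw [hxdef]; ring
  have h1 : ∀ {a : ℕ → ℝ}, PB a →
      HasDerivAt (fun t : ℝ => 2 * Real.exp (2 * t) * ps a (Real.exp (2 * t)))
        (2 * x * (2 * ps a x + 2 * x * ps (dcoef a) x)) s := by
    intro a ha
    have hp : HasDerivAt (fun t : ℝ => ps a (Real.exp (2 * t))) (ps (dcoef a) x * (2 * x)) s :=
      HasDerivAt.comp (h₂ := ps a) s (hasDerivAt_ps ha hx) hexp
    refine ((hexp.const_mul (2 : ℝ)).mul hp).congr_deriv ?_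
    rw [← hxdef]; ring
  refine ((h1 (PB_cG hk)).prodMk (((h1 (PB_cH hk)).const_add 1).prodMk (h1 (PB_cM hk)))).congr_deriv ?_
  simp only [field, germCurve, ← hxdef, Prod.mk.injEq]
  refine ⟨?_, ?_, ?_⟩
  · rw [germ_G hk hx]; ring
  · rw [germ_H hk hx]; ring
  · linear_combination (2 * x) * germ_M hk hx

lemma contDiffOn_of_field {k : ℕ} {y : ℝ → ℝ × ℝ × ℝ} {U : Set ℝ} (hU : IsOpen U)
    (hy : ∀ s ∈ U, HasDerivAt y (field k (y s)) s) : ContDiffOn ℝ ∞ y U := by
  rw [contDiffOn_infty]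
  intro n
  induction n with
  | zero =>
    rw [Nat.cast_zero, contDiffOn_zero]
    exact fun s hs => (hy s hs).continuousAt.continuousWithinAt
  | succ n ih =>
    rw [Nat.cast_succ, contDiffOn_succ_iff_deriv_of_isOpen hU]
    refine ⟨fun s hs => (hy s hs).differentiableAt.differentiableWithinAt, by simp, ?_⟩
    exact (((contDiff_field k).of_le (by exact_mod_cast le_top)).comp_contDiffOn ih).congr
      fun s hs => (hy s hs).deriv

theorem exists_profile {k : ℕ} (hk : 9 ≤ k) : Nonempty (Profile k) := by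
  have hk' : (9 : ℝ) ≤ k := by exact_mod_cast hk
  obtain ⟨-, hZ1, hZk, -⟩ := top_facts hk
  have hG := PB_cG hk; have hH := PB_cH hk; have hM := PB_cM hk
  have c0 : ∀ {a : ℕ → ℝ}, PB a → ContinuousAt (ps a) 0 := fun ha =>
    (hasDerivAt_ps ha (by simp)).continuousAt
  have hG0 : 0 < ps (cG k) 0 := by rw [ps_zero, cG_zero]; unfold alpha; positivity
  have hM0 : 0 < ps (cM k) 0 := by rw [ps_zero, cM_zero]; unfold alpha; positivity
  -- a small radius
  have ev : ∀ᶠ x in 𝓝 (0 : ℝ), |x| < 1 ∧ 0 < ps (cG k) x ∧ 0 < ps (cM k) x ∧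
      0 < 1 + 2 * x * ps (cH k) x ∧ 2 * x * ps (cG k) x < 9 / 2 ∧
      1 + 2 * x * ps (cH k) x < 7 / 2 ∧
      2 * x * ps (cM k) x < zTop k * (1 + 2 * x * ps (cH k) x) - 1 := by
    have hc1 := c0 hG; have hc2 := c0 hH; have hc3 := c0 hM
    refine (ContinuousAt.eventually_lt (f := fun x : ℝ => |x|) (g := fun _ => (1 : ℝ))
      continuous_abs.continuousAt continuousAt_const (by simp)).and
      ((continuousAt_const.eventually_lt hc1 hG0).and ((continuousAt_const.eventually_lt hc3 hM0).and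
      ((ContinuousAt.eventually_lt continuousAt_const (by fun_prop) (by simp)).and
      ((ContinuousAt.eventually_lt (by fun_prop) continuousAt_const (by norm_num)).and
      ((ContinuousAt.eventually_lt (by fun_prop) continuousAt_const (by norm_num)).and
      (ContinuousAt.eventually_lt (by fun_prop) (by fun_prop) (by simpa using sub_pos.2 hZ1)))))))
  obtain ⟨ε, hε, hball⟩ := Metric.eventually_nhds_iff.1 ev
  set q₀ := ε / 2 with hq₀
  have hq₀pos : 0 < q₀ := by positivity
  obtain ⟨hq₀1, hGq, hMq, hEq, hgq, heq, hmq⟩ :=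
    hball (y := q₀) (by rw [Real.dist_0_eq_abs, abs_of_pos hq₀pos, hq₀]; linarith)
  set s₀ := Real.log q₀ / 2 with hs₀
  have hexp0 : Real.exp (2 * s₀) = q₀ := by
    rw [hs₀, mul_div_cancel₀ _ (two_ne_zero), Real.exp_log hq₀pos]
  have hs₀neg : s₀ < 0 := by
    rw [hs₀]
    have := Real.log_neg hq₀pos (abs_lt.1 hq₀1).2
    linarith
  -- the global solution
  set B : ℝ := 5 * k with hB
  obtain ⟨K, L, hlip, hbd⟩ := exists_lipschitz_bounded_field k (B := B) (by positivity)
  obtain ⟨y, hy0, hy⟩ := exists_global_solution hlip hbd s₀ (germCurve k s₀)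
  have hbar0 : ∀ i, 0 < barrier k (germCurve k s₀) i := by
    intro i
    fin_cases i <;> simp [barrier, germCurve, hexp0] <;>
      first | positivity | linarith
  have hnorm : ∀ p, (∀ i, 0 ≤ barrier k p i) → ‖p‖ < B := fun p hp =>
    (box_norm_le hk hp).trans_lt (by rw [hB]; linarith)
  have htrue : ∀ s, ‖y s‖ ≤ B → HasDerivAt y (field k (y s)) s := fun s hs => by
    have := hy s
    rwa [clamp3_eq hs] at this
  have hbar : ∀ s, s₀ ≤ s → ∀ i, 0 < barrier k (y s) i := by
    refine pos_of_deriv_ge (fun i s => barrier k (y s) i)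
      (fun i s => barrier' k (clamp3 B (y s)) i)
      s₀ (16 * k) (fun i s => ?_) (fun s _ hs i => ?_) (by rw [hy0]; exact hbar0)
    · have h := hy s
      have a1 := hasFDerivAt_fst.comp_hasDerivAt s h
      have a23 := hasFDerivAt_snd.comp_hasDerivAt s h
      have a2 := hasFDerivAt_fst.comp_hasDerivAt s a23
      have a3 := hasFDerivAt_snd.comp_hasDerivAt s a23
      simp only [Function.comp_def, ContinuousLinearMap.coe_fst', ContinuousLinearMap.coe_snd']
        at a1 a2 a3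
      fin_cases i <;> simp [barrier, barrier']
      · exact a1
      · exact a2
      · exact a3
      · exact a1.const_sub _
      · exact a2.const_sub _
      · exact ((a2.const_mul _).sub_const 1).sub a3
    · simp only [clamp3_eq (hnorm _ hs).le]
      exact barrier_ineq hk hs i
  set U : Set ℝ := {s | ‖y s‖ < B}
  have hyc : Continuous y := continuous_iff_continuousAt.2 fun s => (hy s).continuousAt
  have hU : IsOpen U := isOpen_lt hyc.norm continuous_const
  have hUmem : ∀ s, s₀ ≤ s → s ∈ U := fun s hs => hnorm _ fun i => (hbar s hs i).le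
  have hsm : ContDiffOn ℝ ∞ y U := contDiffOn_of_field hU fun s hs => htrue s (le_of_lt hs)
  -- agreement with the germ near `s₀`
  have hagree : y =ᶠ[𝓝 s₀] germCurve k := by
    refine ODE_solution_unique_of_eventually (v := fun _ p => field k (clamp3 B p))
      (s := fun _ => univ) (K := K) (Eventually.of_forall fun _ => hlip.lipschitzOnWith)
      (Eventually.of_forall fun s => ⟨hy s, trivial⟩) ?_ hy0
    have hc : ContinuousAt (germCurve k) s₀ := (hasDerivAt_germCurve hk hs₀neg).continuousAt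
    have : ∀ᶠ s in 𝓝 s₀, ‖germCurve k s‖ < B :=
      hc.norm.eventually_lt continuousAt_const (hnorm _ fun i => (hbar0 i).le)
    filter_upwards [this, eventually_lt_nhds hs₀neg] with s hs hs'
    refine ⟨?_, trivial⟩
    rw [clamp3_eq hs.le]
    exact hasDerivAt_germCurve hk hs'
  obtain ⟨η, hη, hη'⟩ := Metric.eventually_nhds_iff.1 (hagree.and (hU.mem_nhds (hUmem s₀ le_rfl)))
  set s₁ := s₀ - η
  set q₁ := Real.exp (2 * s₁) with hq₁
  have hq₁0 : 0 < q₁ := Real.exp_pos _
  have hq₁q₀ : q₁ < q₀ := by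
    rw [hq₁, ← hexp0]; exact Real.exp_lt_exp.2 (by simp only [s₁]; linarith)
  have hlog : ∀ q, q₁ < q → s₁ < Real.log q / 2 := fun q hq => by
    have := Real.log_lt_log hq₁0 hq
    rw [hq₁, Real.log_exp] at this
    linarith
  have hlogU : ∀ q, q₁ < q → Real.log q / 2 ∈ U := fun q hq => by
    by_cases h : s₀ ≤ Real.log q / 2
    · exact hUmem _ h
    · refine (hη' ?_).2
      rw [Real.dist_eq, abs_lt]
      have := hlog q hq
      simp only [s₁] at this
      exact ⟨by linarith, by linarith⟩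
  set G₂ : ℝ → ℝ := fun q => (y (Real.log q / 2)).1 / (2 * q) with hG₂
  set H₂ : ℝ → ℝ := fun q => ((y (Real.log q / 2)).2.1 - 1) / (2 * q) with hH₂
  set M₂ : ℝ → ℝ := fun q => (y (Real.log q / 2)).2.2 / (2 * q) with hM₂
  have hsmq : ContDiffOn ℝ ∞ (fun q => y (Real.log q / 2)) (Ioi q₁) :=
    hsm.comp ((Real.contDiffOn_log.mono fun q hq => ne_of_gt (hq₁0.trans hq)).div_const 2)
      fun q hq => hlogU q hq
  have hsmd : ContDiffOn ℝ ∞ (fun q : ℝ => 2 * q) (Ioi q₁) := by fun_prop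
  have hne : ∀ q ∈ Ioi q₁, (2 : ℝ) * q ≠ 0 := fun q hq =>
    ne_of_gt (by have := hq₁0.trans hq; positivity)
  have hsG₂ : ContDiffOn ℝ ∞ G₂ (Ioi q₁) :=
    ((contDiff_fst.comp_contDiffOn hsmq)).div hsmd hne
  have hsH₂ : ContDiffOn ℝ ∞ H₂ (Ioi q₁) :=
    ((contDiff_fst.comp_contDiffOn (contDiff_snd.comp_contDiffOn hsmq)).sub contDiffOn_const).div
      hsmd hne
  have hsM₂ : ContDiffOn ℝ ∞ M₂ (Ioi q₁) :=
    ((contDiff_snd.comp_contDiffOn (contDiff_snd.comp_contDiffOn hsmq))).div hsmd hne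
  have hsame : ∀ q, q₁ < q → q < q₀ →
      G₂ q = ps (cG k) q ∧ H₂ q = ps (cH k) q ∧ M₂ q = ps (cM k) q := by
    intro q h1 h2
    have hqpos : 0 < q := hq₁0.trans h1
    have hl := hlog q h1
    have hl2 : Real.log q / 2 < s₀ := by
      have := Real.log_lt_log hqpos h2
      rw [hs₀]; linarith
    have e : y (Real.log q / 2) = germCurve k (Real.log q / 2) := (hη' (by
      rw [Real.dist_eq, abs_lt]; simp only [s₁] at hl; exact ⟨by linarith, by linarith⟩)).1
    have e2 : Real.exp (2 * (Real.log q / 2)) = q := by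
      rw [mul_div_cancel₀ _ (two_ne_zero), Real.exp_log hqpos]
    simp only [hG₂, hH₂, hM₂, e, germCurve, e2]
    refine ⟨?_, ?_, ?_⟩ <;> field_simp <;> ring
  classical
  let glue : (ℕ → ℝ) → (ℝ → ℝ) → ℝ → ℝ := fun a f q => if q < q₀ then ps a q else f q
  have near₁ : ∀ (a : ℕ → ℝ) (f : ℝ → ℝ) (q : ℝ), q < q₀ → glue a f =ᶠ[𝓝 q] ps a :=
    fun a f q hq => by
      filter_upwards [eventually_lt_nhds hq] with z hz
      simp [glue, hz]
  have near₂ : ∀ (a : ℕ → ℝ) (f : ℝ → ℝ), (∀ z, q₁ < z → z < q₀ → f z = ps a z) →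
      ∀ q, q₁ < q → glue a f =ᶠ[𝓝 q] f := fun a f hf q hq => by
    filter_upwards [eventually_gt_nhds hq] with z hz
    simp only [glue]
    split_ifs with h
    · exact (hf z hz h).symm
    · rfl
  have eG := fun q h => near₂ (cG k) G₂ (fun z a b => (hsame z a b).1) q h
  have eH := fun q h => near₂ (cH k) H₂ (fun z a b => (hsame z a b).2.1) q h
  have eM := fun q h => near₂ (cM k) M₂ (fun z a b => (hsame z a b).2.2) q h
  have habs : ∀ q, -q₀ < q → q < q₀ → |q| < 1 ∧ dist q 0 < ε := fun q h1 h2 => by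
    have hlt : |q| < q₀ := abs_lt.2 ⟨h1, h2⟩
    exact ⟨hlt.trans (by rwa [abs_of_pos hq₀pos] at hq₀1),
      by rw [Real.dist_0_eq_abs]; rw [hq₀] at hlt; linarith⟩
  have smooth : ∀ (a : ℕ → ℝ) (f : ℝ → ℝ), PB a → ContDiffOn ℝ ∞ f (Ioi q₁) →
      (∀ q, q₁ < q → glue a f =ᶠ[𝓝 q] f) → ContDiffOn ℝ ∞ (glue a f) (Ioi (-q₀)) := by
    intro a f ha hf he q hq
    by_cases h : q < q₀
    · exact ((contDiffOn_ps ha).contDiffAt (Ioo_mem_nhds (abs_lt.1 (habs q hq h).1).1
        (abs_lt.1 (habs q hq h).1).2)).congr_of_eventuallyEq (near₁ a f q h) |>.contDiffWithinAt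
    · have h' : q₁ < q := hq₁q₀.trans_le (not_lt.1 h)
      exact ((hf.contDiffAt (Ioi_mem_nhds h')).congr_of_eventuallyEq (he q h')).contDiffWithinAt
  have hder : ∀ q, q₁ < q → let p := y (Real.log q / 2)
      HasDerivAt G₂ (p.1 * (p.2.1 - 1 - p.1) / (4 * q ^ 2)) q ∧
      HasDerivAt H₂ (((field k p).2.1 - 2 * (p.2.1 - 1)) / (4 * q ^ 2)) q ∧
      HasDerivAt M₂ (((field k p).2.2 - 2 * p.2.2) / (4 * q ^ 2)) q := by
    intro q hq p
    have hqpos : 0 < q := hq₁0.trans hq
    have hl : HasDerivAt (fun z => Real.log z / 2) (q⁻¹ / 2) q :=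
      (Real.hasDerivAt_log hqpos.ne').div_const 2
    have h := (htrue _ (le_of_lt (hlogU q hq))).scomp q hl
    have a1 := hasFDerivAt_fst.comp_hasDerivAt q h
    have a23 := hasFDerivAt_snd.comp_hasDerivAt q h
    have a2 := hasFDerivAt_fst.comp_hasDerivAt q a23
    have a3 := hasFDerivAt_snd.comp_hasDerivAt q a23
    simp only [Function.comp_def, ContinuousLinearMap.coe_fst', ContinuousLinearMap.coe_snd',
      Prod.smul_fst, Prod.smul_snd, smul_eq_mul] at a1 a2 a3
    have hd : HasDerivAt (fun z : ℝ => 2 * z) 2 q := by simpa using (hasDerivAt_id' q).const_mul 2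
    have hn : (2 : ℝ) * q ≠ 0 := by positivity
    refine ⟨(a1.div hd hn).congr_deriv ?_, ((a2.sub_const 1).div hd hn).congr_deriv ?_,
      (a3.div hd hn).congr_deriv ?_⟩
    all_goals
      simp only [p, field]
      field_simp
      ring
  refine ⟨⟨q₀, hq₀pos, glue (cG k) G₂, glue (cH k) H₂, glue (cM k) M₂,
    smooth _ _ hG hsG₂ eG, smooth _ _ hH hsH₂ eH, smooth _ _ hM hsM₂ eM, ?_, ?_, ?_, ?_, ?_⟩⟩
  all_goals intro q hq
  all_goals by_cases h : q < q₀
  · simpa [glue, h] using (hball (habs q hq h).2).2.1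
  · have h' : q₁ < q := hq₁q₀.trans_le (not_lt.1 h)
    have hb := hbar (Real.log q / 2) (by
      have := Real.log_le_log hq₀pos (not_lt.1 h); rw [hs₀]; linarith) 0
    simp [barrier] at hb
    have := hq₁0.trans h'
    simp [glue, h, hG₂]; positivity
  · simpa [glue, h] using (hball (habs q hq h).2).2.2.2.1
  · have h' : q₁ < q := hq₁q₀.trans_le (not_lt.1 h)
    have hb := hbar (Real.log q / 2) (by
      have := Real.log_le_log hq₀pos (not_lt.1 h); rw [hs₀]; linarith) 1
    simp [barrier] at hb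
    have := hq₁0.trans h'
    have e : 1 + 2 * q * H₂ q = (y (Real.log q / 2)).2.1 := by
      simp only [hH₂]; field_simp; ring
    simpa [glue, h, e] using hb
  · rw [(near₁ _ _ q h).deriv_eq, (hasDerivAt_ps hG (habs q hq h).1).deriv,
      germ_G hk (habs q hq h).1]
    simp [glue, h]
  · have h' : q₁ < q := hq₁q₀.trans_le (not_lt.1 h)
    have hqpos : 0 < q := hq₁0.trans h'
    rw [(eG q h').deriv_eq, (hder q h').1.deriv]
    simp only [glue, if_neg h, hG₂, hH₂]
    field_simp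
    ring
  · rw [(near₁ _ _ q h).deriv_eq, (hasDerivAt_ps hH (habs q hq h).1).deriv]
    simpa [glue, h] using germ_H hk (habs q hq h).1
  · have h' : q₁ < q := hq₁q₀.trans_le (not_lt.1 h)
    have hqpos : 0 < q := hq₁0.trans h'
    rw [(eH q h').deriv_eq, (hder q h').2.1.deriv]
    simp only [glue, if_neg h, hG₂, hH₂, hM₂, field]
    field_simp
    ring
  · rw [(near₁ _ _ q h).deriv_eq, (hasDerivAt_ps hM (habs q hq h).1).deriv]
    simpa [glue, h] using germ_M hk (habs q hq h).1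
  · have h' : q₁ < q := hq₁q₀.trans_le (not_lt.1 h)
    have hqpos : 0 < q := hq₁0.trans h'
    rw [(eM q h').deriv_eq, (hder q h').2.2.deriv]
    simp only [glue, if_neg h, hG₂, hH₂, hM₂, field]
    field_simp
    ring

end Vale.Agent.P252
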