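import Vale.Agent.P252.Defs
import Vale.Agent.P252.Block
import Vale.Agent.P252.Profile

/-!
# The function `u = √(F(|x|²)² + t²)` and its affine maximal equation
-/

namespace Vale.Agent.P252

open scoped ContDiff Topology
open Finset Set

variable {k : ℕ}

lemma pd_eq {n : ℕ} {f : (Fin n → ℝ) → ℝ} {x : Fin n → ℝ} {i : Fin n} {d : ℝ}
    (hf : DifferentiableAt ℝ f x)
    (h : HasDerivAt (fun s : ℝ => f (x + s • (Pi.single i 1 : Fin n → ℝ))) d 0) : pd i f x = d :=
  HasLineDerivAt.unique (hf.hasFDerivAt.hasLineDerivAt _) h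

/-- `|x|²`. -/
def qf (y : Fin (k + 1) → ℝ) : ℝ := ∑ i : Fin k, y i.castSucc ^ 2

/-- The directional derivative of `|x|²`. -/
def dqf (y v : Fin (k + 1) → ℝ) : ℝ := ∑ i : Fin k, 2 * y i.castSucc * v i.castSucc

lemma qf_nonneg (y : Fin (k + 1) → ℝ) : 0 ≤ qf y := sum_nonneg fun _ _ => sq_nonneg _

lemma contDiff_qf : ContDiff ℝ ∞ (qf (k := k)) := by unfold qf; fun_prop

lemma hasDerivAt_qf (y v : Fin (k + 1) → ℝ) :
    HasDerivAt (fun s : ℝ => qf (y + s • v)) (dqf y v) 0 := by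
  unfold qf dqf
  refine HasDerivAt.fun_sum fun i _ => ?_
  have h : HasDerivAt (fun s : ℝ => y i.castSucc + s * v i.castSucc) (v i.castSucc) 0 := by
    simpa using ((hasDerivAt_id' (0 : ℝ)).mul_const (v i.castSucc)).const_add (y i.castSucc)
  simpa using h.fun_pow 2

lemma dqf_castSucc (y : Fin (k + 1) → ℝ) (i : Fin k) :
    dqf y (Pi.single i.castSucc 1) = 2 * y i.castSucc := by
  rw [dqf, Finset.sum_eq_single i]
  · simp
  · intro j _ hj
    simp [Pi.single_apply, hj]
  · simp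

lemma dqf_last (y : Fin (k + 1) → ℝ) : dqf y (Pi.single (Fin.last k) 1) = 0 := by
  simp [dqf, Fin.castSucc_ne_last]

lemma hasDerivAt_coord (y v : Fin (k + 1) → ℝ) (j : Fin (k + 1)) :
    HasDerivAt (fun s : ℝ => (y + s • v) j) (v j) 0 := by
  simpa using ((hasDerivAt_id' (0 : ℝ)).mul_const (v j)).const_add (y j)

namespace Profile

variable (p : Profile k)

lemma mem_dom {q : ℝ} (hq : 0 ≤ q) : -p.δ < q := by linarith [p.δ_pos]

/-- `log F`. -/
noncomputable def L (q : ℝ) : ℝ := ∫ s in (0 : ℝ)..q, p.G s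

lemma hasDerivAt_L {q : ℝ} (hq : -p.δ < q) : HasDerivAt p.L (p.G q) q := by
  have hc := p.smG.continuousOn
  refine intervalIntegral.integral_hasDerivAt_right ?_ ?_ (hc.continuousAt (Ioi_mem_nhds hq))
  · exact (hc.mono (ordConnected_Ioi.uIcc_subset (p.mem_dom le_rfl) hq)).intervalIntegrable
  · exact hc.stronglyMeasurableAtFilter isOpen_Ioi q hq

lemma contDiffOn_L : ContDiffOn ℝ ∞ p.L (Ioi (-p.δ)) := by
  rw [contDiffOn_infty_iff_deriv_of_isOpen isOpen_Ioi]
  exact ⟨fun q hq => (p.hasDerivAt_L hq).differentiableAt.differentiableWithinAt,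
    p.smG.congr fun q hq => (p.hasDerivAt_L hq).deriv⟩

lemma hasDerivAt_G {q : ℝ} (hq : -p.δ < q) :
    HasDerivAt p.G (p.G q * (p.H q - p.G q)) q := by
  have := ((p.smG.contDiffAt (Ioi_mem_nhds hq)).differentiableAt (by simp)).hasDerivAt
  rwa [p.eqG q hq] at this

lemma hasDerivAt_H {q : ℝ} (hq : -p.δ < q) : HasDerivAt p.H (deriv p.H q) q :=
  ((p.smH.contDiffAt (Ioi_mem_nhds hq)).differentiableAt (by simp)).hasDerivAt

lemma hasDerivAt_M {q : ℝ} (hq : -p.δ < q) : HasDerivAt p.M (deriv p.M q) q :=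
  ((p.smM.contDiffAt (Ioi_mem_nhds hq)).differentiableAt (by simp)).hasDerivAt

/-- The radial profile as a function of `q = r²`. -/
noncomputable def F (q : ℝ) : ℝ := Real.exp (p.L q)

lemma hasDerivAt_F {q : ℝ} (hq : -p.δ < q) : HasDerivAt p.F (p.F q * p.G q) q :=
  (p.hasDerivAt_L hq).exp

/-- The radial factor of `w`. -/
noncomputable def P (q : ℝ) : ℝ :=
  Real.exp (-(kap k)⁻¹ *
      (((k : ℝ) - 1) * p.L q + k * Real.log (2 * p.G q) + Real.log (1 + 2 * q * p.H q)) -
    ((k : ℝ) + 2) * p.L q)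

lemma hasDerivAt_P {q : ℝ} (hq : -p.δ < q) :
    HasDerivAt p.P (-(p.M q + ((k : ℝ) + 2) * p.G q) * p.P q) q := by
  have hG := p.G_pos q hq
  have hE := p.E_pos q hq
  have hκ := kap_pos k
  have h1 : HasDerivAt (fun z => Real.log (2 * p.G z)) (p.H q - p.G q) q := by
    refine (((p.hasDerivAt_G hq).const_mul 2).log (by positivity)).congr_deriv ?_
    field_simp
  have h2 : HasDerivAt (fun z => Real.log (1 + 2 * z * p.H z))
      (p.G q + kap k * p.M q - k * p.H q) q := by
    refine (((((hasDerivAt_id' q).const_mul 2).mul (p.hasDerivAt_H hq)).const_add 1).log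
      hE.ne').congr_deriv ?_
    simp only [Pi.mul_apply]
    rw [div_eq_iff hE.ne']
    linear_combination p.eqH q hq
  have h3 := ((((p.hasDerivAt_L hq).const_mul ((k : ℝ) - 1)).add (h1.const_mul (k : ℝ))).add
    h2).const_mul (-(kap k)⁻¹)
  refine ((h3.sub ((p.hasDerivAt_L hq).const_mul ((k : ℝ) + 2))).exp).congr_deriv ?_
  simp only [P, Pi.add_apply, Pi.sub_apply]
  field_simp
  ring

/-- The entire function. -/
noncomputable def u (y : Fin (k + 1) → ℝ) : ℝ :=
  Real.sqrt (p.F (qf y) ^ 2 + y (Fin.last k) ^ 2)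

lemma u_pos (y : Fin (k + 1) → ℝ) : 0 < p.u y :=
  Real.sqrt_pos.2 (add_pos_of_pos_of_nonneg (pow_pos (Real.exp_pos _) 2) (sq_nonneg _))

lemma u_sq (y : Fin (k + 1) → ℝ) : p.u y ^ 2 = p.F (qf y) ^ 2 + y (Fin.last k) ^ 2 :=
  Real.sq_sqrt (add_nonneg (sq_nonneg _) (sq_nonneg _))

lemma contDiff_comp_qf {f : ℝ → ℝ} (hf : ContDiffOn ℝ ∞ f (Ioi (-p.δ))) :
    ContDiff ℝ ∞ fun y : Fin (k + 1) → ℝ => f (qf y) :=
  hf.comp_contDiff contDiff_qf fun y => p.mem_dom (qf_nonneg y)

lemma contDiffOn_F : ContDiffOn ℝ ∞ p.F (Ioi (-p.δ)) := p.contDiffOn_L.exp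

lemma contDiffOn_P : ContDiffOn ℝ ∞ p.P (Ioi (-p.δ)) := by
  have h1 : ContDiffOn ℝ ∞ (fun q => Real.log (2 * p.G q)) (Ioi (-p.δ)) :=
    (contDiffOn_const.mul p.smG).log fun q hq => by
      have := p.G_pos q hq; positivity
  have h2 : ContDiffOn ℝ ∞ (fun q : ℝ => Real.log (1 + 2 * q * p.H q)) (Ioi (-p.δ)) :=
    (contDiffOn_const.add ((contDiffOn_const.mul contDiffOn_id).mul p.smH)).log fun q hq =>
      (p.E_pos q hq).ne'
  have hL := p.contDiffOn_L
  unfold P
  fun_prop

lemma contDiff_u : ContDiff ℝ ∞ p.u := by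
  refine (((p.contDiff_comp_qf p.contDiffOn_F).pow 2).add
    ((contDiff_apply ℝ ℝ (Fin.last k)).pow 2)).sqrt fun y => ?_
  exact (add_pos_of_pos_of_nonneg (pow_pos (Real.exp_pos _) 2) (sq_nonneg _)).ne'

section Lines

variable (y v : Fin (k + 1) → ℝ)

lemma line_comp {f : ℝ → ℝ} {f' : ℝ} (hf : HasDerivAt f f' (qf y)) :
    HasDerivAt (fun s : ℝ => f (qf (y + s • v))) (f' * dqf y v) 0 :=
  HasDerivAt.comp (h₂ := f) (0 : ℝ) (by simpa using hf) (hasDerivAt_qf y v)

lemma line_u : HasDerivAt (fun s : ℝ => p.u (y + s • v))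
    ((p.F (qf y) ^ 2 * p.G (qf y) * dqf y v + y (Fin.last k) * v (Fin.last k)) / p.u y) 0 := by
  have hq := p.mem_dom (qf_nonneg y)
  have h := ((line_comp y v (p.hasDerivAt_F hq)).fun_pow 2).add
    ((hasDerivAt_coord y v (Fin.last k)).fun_pow 2)
  have h2 := h.sqrt (by
    simp only [Pi.add_apply, zero_smul, add_zero]
    exact (add_pos_of_pos_of_nonneg (pow_pos (Real.exp_pos _) 2) (sq_nonneg _)).ne')
  refine h2.congr_deriv ?_
  have := p.u_pos y
  simp only [u, Pi.add_apply, zero_smul, Pi.zero_apply, add_zero] at this ⊢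
  field_simp
  ring

end Lines

lemma pd_u_castSucc (i : Fin k) : pd i.castSucc p.u =
    fun y => 2 * y i.castSucc * (p.F (qf y) ^ 2 * p.G (qf y)) / p.u y := by
  funext y
  refine (pd_eq (p.contDiff_u.differentiable (by simp) y) (p.line_u y _)).trans ?_
  rw [dqf_castSucc, Pi.single_eq_of_ne (Fin.castSucc_ne_last i).symm]
  ring

lemma pd_u_last : pd (Fin.last k) p.u = fun y => y (Fin.last k) / p.u y := by
  funext y
  refine (pd_eq (p.contDiff_u.differentiable (by simp) y) (p.line_u y _)).trans ?_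
  rw [dqf_last, Pi.single_eq_same]
  ring

/-- Entry `a` of the Hessian. -/
noncomputable def ha (y : Fin (k + 1) → ℝ) : ℝ := 2 * p.G (qf y) * p.F (qf y) ^ 2 / p.u y

/-- Entry `b` of the Hessian. -/
noncomputable def hb (y : Fin (k + 1) → ℝ) : ℝ :=
  4 * p.F (qf y) ^ 2 * (p.G (qf y) * (p.H (qf y) + p.G (qf y)) / p.u y -
    p.G (qf y) ^ 2 * p.F (qf y) ^ 2 / p.u y ^ 3)

/-- Entry `c` of the Hessian. -/
noncomputable def hc (y : Fin (k + 1) → ℝ) : ℝ :=
  -(2 * p.G (qf y) * p.F (qf y) ^ 2 * y (Fin.last k) / p.u y ^ 3)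

/-- Entry `d` of the Hessian. -/
noncomputable def hd (y : Fin (k + 1) → ℝ) : ℝ := p.F (qf y) ^ 2 / p.u y ^ 3

lemma hess_u (y : Fin (k + 1) → ℝ) :
    hess p.u y = blk (fun i => y i.castSucc) (p.ha y) (p.hb y) (p.hc y) (p.hd y) := by
  have hq := p.mem_dom (qf_nonneg y)
  have hu := p.u_pos y
  have hdiff : ∀ j, DifferentiableAt ℝ (pd j p.u) y := fun j => by
    have : ContDiff ℝ ∞ (pd j p.u) :=
      (p.contDiff_u.fderiv_right (m := ∞) (by simp)).clm_apply contDiff_const
    exact this.differentiable (by simp) y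
  have du := fun v => p.line_u y v
  have dFG : ∀ v, HasDerivAt (fun s : ℝ => p.F (qf (y + s • v)) ^ 2 * p.G (qf (y + s • v)))
      (p.F (qf y) ^ 2 * p.G (qf y) * (p.H (qf y) + p.G (qf y)) * dqf y v) 0 := fun v => by
    refine (((line_comp y v (p.hasDerivAt_F hq)).fun_pow 2).mul
      (line_comp y v (p.hasDerivAt_G hq))).congr_deriv ?_
    simp only [zero_smul, add_zero]
    push_cast
    ring
  have hsq := p.u_sq y
  ext i j
  change pd i (pd j p.u) y = _
  induction j using Fin.lastCases with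
  | last =>
    have h : ∀ v : Fin (k + 1) → ℝ, HasDerivAt (fun s : ℝ => pd (Fin.last k) p.u (y + s • v))
        ((v (Fin.last k) * p.u y - y (Fin.last k) *
          ((p.F (qf y) ^ 2 * p.G (qf y) * dqf y v + y (Fin.last k) * v (Fin.last k)) / p.u y)) /
            p.u y ^ 2) 0 := fun v => by
      simp only [p.pd_u_last]
      refine (((hasDerivAt_coord y v (Fin.last k)).div (du v) (by simpa using hu.ne')).congr_of_eventuallyEq
        (Filter.Eventually.of_forall fun s => by simp)).congr_deriv (by simp)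
    refine (pd_eq (hdiff _) (h _)).trans ?_
    induction i using Fin.lastCases with
    | last =>
      rw [blk_ll, dqf_last, Pi.single_eq_same, hd]
      field_simp
      linear_combination hsq
    | cast i =>
      rw [blk_cl, dqf_castSucc, Pi.single_eq_of_ne (Fin.castSucc_ne_last i).symm, hc]
      field_simp
      ring
  | cast j =>
    have h : ∀ v : Fin (k + 1) → ℝ, HasDerivAt (fun s : ℝ => pd j.castSucc p.u (y + s • v))
        (((2 * v j.castSucc * (p.F (qf y) ^ 2 * p.G (qf y)) + 2 * y j.castSucc *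
          (p.F (qf y) ^ 2 * p.G (qf y) * (p.H (qf y) + p.G (qf y)) * dqf y v)) * p.u y -
          2 * y j.castSucc * (p.F (qf y) ^ 2 * p.G (qf y)) *
          ((p.F (qf y) ^ 2 * p.G (qf y) * dqf y v + y (Fin.last k) * v (Fin.last k)) / p.u y)) /
            p.u y ^ 2) 0 := fun v => by
      simp only [p.pd_u_castSucc]
      refine ((((hasDerivAt_coord y v j.castSucc).const_mul (2 : ℝ)).mul (dFG v)).div (du v)
        (by simpa using hu.ne')).congr_of_eventuallyEq
        (Filter.Eventually.of_forall fun s => by simp) |>.congr_deriv (by simp)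
    refine (pd_eq (hdiff _) (h _)).trans ?_
    induction i using Fin.lastCases with
    | last =>
      rw [blk_lc, dqf_last, Pi.single_eq_same, Pi.single_eq_of_ne (Fin.castSucc_ne_last j), hc]
      field_simp
      ring
    | cast i =>
      rw [blk_cc, dqf_castSucc, Pi.single_eq_of_ne (Fin.castSucc_ne_last i).symm, ha, hb,
        Pi.single_apply]
      by_cases e : i = j
      · subst e
        simp only [if_true]
        field_simp
        ring
      · have e' : j.castSucc ≠ i.castSucc := fun he => e (Fin.castSucc_inj.1 he).symm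
        simp only [if_neg e, if_neg e']
        field_simp
        ring

lemma qf_sum (y : Fin (k + 1) → ℝ) : ∑ i : Fin k, (fun i : Fin k => y i.castSucc) i ^ 2 = qf y :=
  rfl

lemma hN_eq (y : Fin (k + 1) → ℝ) :
    (p.ha y + p.hb y * qf y) * p.hd y - p.hc y ^ 2 * qf y =
      2 * p.G (qf y) * p.F (qf y) ^ 4 * (1 + 2 * qf y * p.H (qf y)) / p.u y ^ 4 := by
  have hu := p.u_pos y
  rw [ha, hb, hc, hd]
  field_simp
  linear_combination (4 * p.G (qf y) ^ 2 * p.F (qf y) ^ 4 * qf y) * p.u_sq y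

lemma posDef_hess (y : Fin (k + 1) → ℝ) : (hess p.u y).PosDef := by
  have hq := p.mem_dom (qf_nonneg y)
  have := p.u_pos y
  have := p.G_pos _ hq
  have := p.E_pos _ hq
  have : 0 < p.F (qf y) := Real.exp_pos _
  rw [p.hess_u y]
  refine posDef_blk (qf_sum y) (by unfold ha; positivity) (by unfold hd; positivity) ?_
  rw [p.hN_eq y]
  positivity

lemma det_hess (hk : 0 < k) (y : Fin (k + 1) → ℝ) : (hess p.u y).det =
    (2 * p.G (qf y)) ^ k * p.F (qf y) ^ (k - 1) * (1 + 2 * qf y * p.H (qf y)) *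
      (p.F (qf y) / p.u y) ^ (k + 3) := by
  have hq := p.mem_dom (qf_nonneg y)
  have hu := p.u_pos y
  have hG := p.G_pos _ hq
  have hF : 0 < p.F (qf y) := Real.exp_pos _
  have ha0 : 0 < p.ha y := by unfold ha; positivity
  have hd0 : 0 < p.hd y := by unfold hd; positivity
  rw [p.hess_u y, det_blk (qf_sum y) ha0.ne' hd0.ne']
  obtain ⟨j, rfl⟩ : ∃ j, k = j + 1 := ⟨k - 1, by omega⟩
  have e : p.hd y * p.ha y ^ (j + 1) * (1 + (p.hb y - p.hc y ^ 2 / p.hd y) * qf y / p.ha y) =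
      p.ha y ^ j * ((p.ha y + p.hb y * qf y) * p.hd y - p.hc y ^ 2 * qf y) := by
    field_simp
    ring
  rw [e, p.hN_eq y, ha, Nat.add_sub_cancel]
  simp only [div_pow, mul_pow, ← pow_mul, pow_succ]
  field_simp
  ring

lemma affineW_u (hk : 0 < k) : affineW p.u = fun y => p.P (qf y) * p.u y ^ (k + 2) := by
  funext y
  have hq := p.mem_dom (qf_nonneg y)
  have hu := p.u_pos y
  have hG := p.G_pos _ hq
  have hE := p.E_pos _ hq
  have hF : 0 < p.F (qf y) := Real.exp_pos _
  have hdet : 0 < (hess p.u y).det := (p.posDef_hess y).det_pos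
  rw [affineW, Real.rpow_def_of_pos hdet, p.det_hess hk y]
  rw [Real.log_mul (by positivity) (by positivity), Real.log_mul (by positivity) (by positivity),
    Real.log_mul (by positivity) (by positivity), Real.log_pow, Real.log_pow, Real.log_pow,
    Real.log_div hF.ne' hu.ne']
  have hlu : p.u y ^ (k + 2) = Real.exp (((k : ℝ) + 2) * Real.log (p.u y)) := by
    rw [show ((k : ℝ) + 2) = ((k + 2 : ℕ) : ℝ) by push_cast; ring, ← Real.log_pow,
      Real.exp_log (pow_pos hu _)]
  rw [hlu, P, ← Real.exp_add]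
  congr 1
  rw [F, Real.log_exp]
  obtain ⟨j, rfl⟩ : ∃ j, k = j + 1 := ⟨k - 1, by omega⟩
  rw [Nat.add_sub_cancel, kap]
  push_cast
  field_simp
  ring

lemma contDiff_w : ContDiff ℝ ∞ fun y => p.P (qf y) * p.u y ^ (k + 2) :=
  (p.contDiff_comp_qf p.contDiffOn_P).mul (p.contDiff_u.pow _)

lemma line_upow (m : ℕ) (y v : Fin (k + 1) → ℝ) : HasDerivAt (fun s : ℝ => p.u (y + s • v) ^ m)
    (m * p.u y ^ m / p.u y ^ 2 *
      (p.F (qf y) ^ 2 * p.G (qf y) * dqf y v + y (Fin.last k) * v (Fin.last k))) 0 := by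
  have hu := p.u_pos y
  refine ((p.line_u y v).fun_pow m).congr_deriv ?_
  simp only [zero_smul, add_zero]
  cases m with
  | zero => simp
  | succ j =>
    rw [Nat.add_sub_cancel]
    field_simp
    ring

/-- The bracket in the gradient of `w`. -/
noncomputable def br (y : Fin (k + 1) → ℝ) : ℝ :=
  -(p.M (qf y) + ((k : ℝ) + 2) * p.G (qf y)) * p.u y ^ 2 +
    ((k : ℝ) + 2) * p.F (qf y) ^ 2 * p.G (qf y)

lemma pd_w_castSucc (i : Fin k) : pd i.castSucc (fun y => p.P (qf y) * p.u y ^ (k + 2)) =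
    fun y => 2 * y i.castSucc * (p.P (qf y) * p.u y ^ k * p.br y) := by
  funext y
  have hq := p.mem_dom (qf_nonneg y)
  have hu := p.u_pos y
  refine (pd_eq (p.contDiff_w.differentiable (by simp) y)
    ((line_comp y _ (p.hasDerivAt_P hq)).mul (p.line_upow (k + 2) y _))).trans ?_
  rw [dqf_castSucc, Pi.single_eq_of_ne (Fin.castSucc_ne_last i).symm, br]
  simp only [zero_smul, add_zero]
  rw [pow_add]
  push_cast
  field_simp
  ring

lemma pd_w_last : pd (Fin.last k) (fun y => p.P (qf y) * p.u y ^ (k + 2)) =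
    fun y => y (Fin.last k) * (((k : ℝ) + 2) * p.P (qf y) * p.u y ^ k) := by
  funext y
  have hq := p.mem_dom (qf_nonneg y)
  have hu := p.u_pos y
  refine (pd_eq (p.contDiff_w.differentiable (by simp) y)
    ((line_comp y _ (p.hasDerivAt_P hq)).mul (p.line_upow (k + 2) y _))).trans ?_
  rw [dqf_last, Pi.single_eq_same]
  simp only [zero_smul, add_zero]
  rw [pow_add]
  push_cast
  field_simp
  ring

/-- Entry `α` of the Hessian of `w`. -/
noncomputable def wa (y : Fin (k + 1) → ℝ) : ℝ := 2 * p.P (qf y) * p.u y ^ k * p.br y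

/-- Entry `β` of the Hessian of `w`. -/
noncomputable def wb (y : Fin (k + 1) → ℝ) : ℝ :=
  4 * p.P (qf y) * p.u y ^ k *
    (-(p.M (qf y) + ((k : ℝ) + 2) * p.G (qf y)) * p.br y +
      (k : ℝ) * p.G (qf y) * p.F (qf y) ^ 2 * p.br y / p.u y ^ 2 +
      (-(deriv p.M (qf y) + ((k : ℝ) + 2) * (p.G (qf y) * (p.H (qf y) - p.G (qf y)))) * p.u y ^ 2 -
        2 * (p.M (qf y) + ((k : ℝ) + 2) * p.G (qf y)) * p.G (qf y) * p.F (qf y) ^ 2 +
        ((k : ℝ) + 2) * p.F (qf y) ^ 2 * p.G (qf y) * (p.H (qf y) + p.G (qf y))))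

/-- Entry `γ` of the Hessian of `w`. -/
noncomputable def wc (y : Fin (k + 1) → ℝ) : ℝ :=
  2 * p.P (qf y) * p.u y ^ k / p.u y ^ 2 * y (Fin.last k) *
    ((k : ℝ) * p.br y - 2 * (p.M (qf y) + ((k : ℝ) + 2) * p.G (qf y)) * p.u y ^ 2)

/-- Entry `δ` of the Hessian of `w`. -/
noncomputable def wd (y : Fin (k + 1) → ℝ) : ℝ :=
  ((k : ℝ) + 2) * p.P (qf y) * p.u y ^ k * (1 + (k : ℝ) * y (Fin.last k) ^ 2 / p.u y ^ 2)

lemma hess_w (y : Fin (k + 1) → ℝ) :
    hess (fun z => p.P (qf z) * p.u z ^ (k + 2)) y =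
      blk (fun i => y i.castSucc) (p.wa y) (p.wb y) (p.wc y) (p.wd y) := by
  have hq := p.mem_dom (qf_nonneg y)
  have hu := p.u_pos y
  have hdiff : ∀ j, DifferentiableAt ℝ (pd j (fun z => p.P (qf z) * p.u z ^ (k + 2))) y := fun j => by
    have : ContDiff ℝ ∞ (pd j (fun z => p.P (qf z) * p.u z ^ (k + 2))) :=
      (p.contDiff_w.fderiv_right (m := ∞) (by simp)).clm_apply contDiff_const
    exact this.differentiable (by simp) y
  set R := p.M (qf y) + ((k : ℝ) + 2) * p.G (qf y) with hR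
  have dPu := fun v : Fin (k + 1) → ℝ =>
    (line_comp y v (p.hasDerivAt_P hq)).mul (p.line_upow k y v)
  have dbr : ∀ v : Fin (k + 1) → ℝ, HasDerivAt (fun s : ℝ => p.br (y + s • v))
      (-(deriv p.M (qf y) + ((k : ℝ) + 2) * (p.G (qf y) * (p.H (qf y) - p.G (qf y)))) * p.u y ^ 2 *
        dqf y v -
        2 * R * (p.F (qf y) ^ 2 * p.G (qf y) * dqf y v + y (Fin.last k) * v (Fin.last k)) +
        ((k : ℝ) + 2) * p.F (qf y) ^ 2 * p.G (qf y) * (p.H (qf y) + p.G (qf y)) * dqf y v) 0 := by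
    intro v
    have a1 := ((line_comp y v (p.hasDerivAt_M hq)).add
      ((line_comp y v (p.hasDerivAt_G hq)).const_mul ((k : ℝ) + 2))).neg
    have a2 := (((line_comp y v (p.hasDerivAt_F hq)).fun_pow 2).const_mul ((k : ℝ) + 2)).mul
      (line_comp y v (p.hasDerivAt_G hq))
    refine ((a1.mul ((p.line_u y v).fun_pow 2)).add a2).congr_deriv ?_
    simp only [zero_smul, add_zero, Pi.add_apply, Pi.neg_apply, hR]
    push_cast
    field_simp
    ring
  ext i j
  change pd i (pd j (fun z => p.P (qf z) * p.u z ^ (k + 2))) y = _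
  induction j using Fin.lastCases with
  | last =>
    have h : ∀ v : Fin (k + 1) → ℝ, HasDerivAt
        (fun s : ℝ => (y + s • v) (Fin.last k) *
          (((k : ℝ) + 2) * p.P (qf (y + s • v)) * p.u (y + s • v) ^ k))
        (v (Fin.last k) * (((k : ℝ) + 2) * p.P (qf y) * p.u y ^ k) + y (Fin.last k) *
          (((k : ℝ) + 2) * (-R * p.P (qf y) * dqf y v * p.u y ^ k + p.P (qf y) *
            (k * p.u y ^ k / p.u y ^ 2 *
              (p.F (qf y) ^ 2 * p.G (qf y) * dqf y v + y (Fin.last k) * v (Fin.last k)))))) 0 :=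
      fun v => by
        have := (hasDerivAt_coord y v (Fin.last k)).mul ((dPu v).const_mul ((k : ℝ) + 2))
        refine (this.congr_of_eventuallyEq (Filter.Eventually.of_forall fun s => ?_)).congr_deriv ?_
        · simp only [Pi.mul_apply]; ring
        · simp only [Pi.mul_apply, zero_smul, add_zero, hR]; ring
    have h' := h (Pi.single i 1)
    rw [show (fun s : ℝ => (y + s • (Pi.single i 1 : Fin (k + 1) → ℝ)) (Fin.last k) *
          (((k : ℝ) + 2) * p.P (qf (y + s • (Pi.single i 1 : Fin (k + 1) → ℝ))) *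
            p.u (y + s • (Pi.single i 1 : Fin (k + 1) → ℝ)) ^ k)) =
        fun s : ℝ => pd (Fin.last k) (fun z => p.P (qf z) * p.u z ^ (k + 2))
          (y + s • (Pi.single i 1 : Fin (k + 1) → ℝ)) by simp only [p.pd_w_last]] at h'
    refine (pd_eq (hdiff _) h').trans ?_
    induction i using Fin.lastCases with
    | last =>
      rw [blk_ll, dqf_last, Pi.single_eq_same, wd]
      field_simp
      ring
    | cast i =>
      rw [blk_cl, dqf_castSucc, Pi.single_eq_of_ne (Fin.castSucc_ne_last i).symm, wc, br, hR]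
      field_simp
      ring
  | cast j =>
    have h : ∀ v : Fin (k + 1) → ℝ, HasDerivAt
        (fun s : ℝ => pd j.castSucc (fun z => p.P (qf z) * p.u z ^ (k + 2)) (y + s • v))
        (2 * v j.castSucc * (p.P (qf y) * p.u y ^ k * p.br y) + 2 * y j.castSucc *
          ((-R * p.P (qf y) * dqf y v * p.u y ^ k + p.P (qf y) *
            (k * p.u y ^ k / p.u y ^ 2 *
              (p.F (qf y) ^ 2 * p.G (qf y) * dqf y v + y (Fin.last k) * v (Fin.last k)))) * p.br y +
          p.P (qf y) * p.u y ^ k *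
            (-(deriv p.M (qf y) + ((k : ℝ) + 2) * (p.G (qf y) * (p.H (qf y) - p.G (qf y)))) *
              p.u y ^ 2 * dqf y v -
            2 * R * (p.F (qf y) ^ 2 * p.G (qf y) * dqf y v + y (Fin.last k) * v (Fin.last k)) +
            ((k : ℝ) + 2) * p.F (qf y) ^ 2 * p.G (qf y) * (p.H (qf y) + p.G (qf y)) * dqf y v))) 0 :=
      fun v => by
        simp only [p.pd_w_castSucc]
        have := ((hasDerivAt_coord y v j.castSucc).const_mul (2 : ℝ)).mul ((dPu v).mul (dbr v))
        refine this.congr_deriv ?_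
        simp only [Pi.mul_apply, zero_smul, add_zero, hR]
    refine (pd_eq (hdiff _) (h _)).trans ?_
    induction i using Fin.lastCases with
    | last =>
      rw [blk_lc, dqf_last, Pi.single_eq_same, Pi.single_eq_of_ne (Fin.castSucc_ne_last j), wc, hR]
      field_simp
      ring
    | cast i =>
      rw [blk_cc, dqf_castSucc, Pi.single_eq_of_ne (Fin.castSucc_ne_last i).symm, wa, wb,
        Pi.single_apply, hR]
      by_cases e : i = j
      · subst e
        simp only [if_true]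
        field_simp
        ring
      · have e' : j.castSucc ≠ i.castSucc := fun he => e (Fin.castSucc_inj.1 he).symm
        simp only [if_neg e, if_neg e']
        field_simp
        ring

/-- The reduced scalar identity: the affine maximal operator vanishes. -/
lemma scalar_identity {K q F G H M M' u t a b c d N br : ℝ}
    (hu : u ≠ 0) (hsq : u ^ 2 = F ^ 2 + t ^ 2)
    (hM : 2 * q * M' = M * (-K + 2 * q * (M - (K - 1) * H)) + (K + 2) * (1 + 2 * q * H) * G)
    (ha : a = 2 * G * F ^ 2 / u)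
    (hb : b = 4 * F ^ 2 * (G * (H + G) / u - G ^ 2 * F ^ 2 / u ^ 3))
    (hc : c = -(2 * G * F ^ 2 * t / u ^ 3)) (hd : d = F ^ 2 / u ^ 3)
    (hN : N = 2 * G * F ^ 4 * (1 + 2 * q * H) / u ^ 4)
    (hbr : br = -(M + (K + 2) * G) * u ^ 2 + (K + 2) * F ^ 2 * G)
    (haN : a ≠ 0) :
    (K - 1) * (2 * br) * N / a + 2 * br * d +
      q * (4 * (-(M + (K + 2) * G) * br + K * G * F ^ 2 * br / u ^ 2 +
        (-(M' + (K + 2) * (G * (H - G))) * u ^ 2 - 2 * (M + (K + 2) * G) * G * F ^ 2 +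
          (K + 2) * F ^ 2 * G * (H + G)))) * d -
      2 * q * c * (2 / u ^ 2 * t * (K * br - 2 * (M + (K + 2) * G) * u ^ 2)) +
      (a + b * q) * ((K + 2) * (1 + K * t ^ 2 / u ^ 2)) = 0 := by
  have hG : G ≠ 0 := by
    intro h; apply haN; rw [ha, h]; ring
  have hF : F ≠ 0 := by
    intro h; apply haN; rw [ha, h]; ring
  have ht : t ^ 2 = u ^ 2 - F ^ 2 := by linarith
  subst ha hb hc hd hN hbr
  linear_combination (norm := (field_simp; ring)) (-(2 * F ^ 2 / u)) * hM +
    (8 * q * G * F ^ 2 / u ^ 5 *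
        (K * (-(M + (K + 2) * G) * u ^ 2 + (K + 2) * F ^ 2 * G) - 2 * (M + (K + 2) * G) * u ^ 2) +
      (2 * G * F ^ 2 / u + 4 * F ^ 2 * (G * (H + G) / u - G ^ 2 * F ^ 2 / u ^ 3) * q) *
        (K + 2) * K / u ^ 2) * ht

lemma isAffineMaximal_u (hk : 0 < k) : IsAffineMaximal p.u := by
  intro y
  have hq := p.mem_dom (qf_nonneg y)
  have hu := p.u_pos y
  have hG := p.G_pos _ hq
  have hE := p.E_pos _ hq
  have hF : 0 < p.F (qf y) := Real.exp_pos _
  set q := qf y with hqdef
  set a := p.ha y with hadef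
  set b := p.hb y with hbdef
  set c := p.hc y with hcdef
  set d := p.hd y with hddef
  have ha0 : 0 < a := by rw [hadef, ha]; positivity
  set N := (a + b * q) * d - c ^ 2 * q with hNdef
  have hN0 : 0 < N := by rw [hNdef, hadef, hbdef, hcdef, hddef, hqdef, p.hN_eq y]; positivity
  have hinv : (hess p.u y)⁻¹ =
      blk (fun i => y i.castSucc) a⁻¹ (-(b * d - c ^ 2) / (a * N)) (-c / N) ((a + b * q) / N) := by
    rw [p.hess_u y, ← hadef, ← hbdef, ← hcdef, ← hddef]
    refine Matrix.inv_eq_right_inv (blk_mul_eq_one (qf_sum y) (mul_inv_cancel₀ ha0.ne') ?_ ?_ ?_ ?_)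
    · field_simp; rw [hNdef]; ring
    · field_simp; ring
    · field_simp; rw [hNdef]; ring
    · field_simp; rw [hNdef]; ring
  have key := scalar_identity (K := (k : ℝ)) (q := q) (F := p.F q) (G := p.G q) (H := p.H q)
    (M := p.M q) (M' := deriv p.M q) (u := p.u y) (t := y (Fin.last k)) (a := a) (b := b) (c := c)
    (d := d) (N := N) (br := p.br y) hu.ne' (p.u_sq y) (p.eqM q hq) hadef hbdef hcdef hddef
    (by rw [hNdef, hadef, hbdef, hcdef, hddef, hqdef, p.hN_eq y]) rfl ha0.ne'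
  have hS : ((k : ℝ) - 1) * p.wa y * N / a + p.wa y * d + q * p.wb y * d -
      2 * q * c * p.wc y + (a + b * q) * p.wd y = 0 := by
    rw [wa, wb, wc, wd, ← hqdef]
    linear_combination (p.P q * p.u y ^ k) * key
  rw [p.affineW_u hk, hinv, p.hess_w y]
  simp only [mul_assoc, ← Finset.mul_sum]
  rw [sum_blk_mul_blk (qf_sum y), ← hqdef]
  refine mul_eq_zero_of_right _ ?_
  have : (k : ℝ) * a⁻¹ * p.wa y +
      q * (a⁻¹ * p.wb y + p.wa y * (-(b * d - c ^ 2) / (a * N))) +
      q ^ 2 * (-(b * d - c ^ 2) / (a * N) * p.wb y) + 2 * q * (-c / N) * p.wc y +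
      (a + b * q) / N * p.wd y =
      (((k : ℝ) - 1) * p.wa y * N / a + p.wa y * d + q * p.wb y * d -
        2 * q * c * p.wc y + (a + b * q) * p.wd y) / N := by
    field_simp
    rw [hNdef]
    ring
  rw [this, hS, zero_div]

lemma F_zero : p.F 0 = 1 := by simp [F, L]

lemma not_isQuadraticPoly_u : ¬ IsQuadraticPoly p.u := by
  rintro ⟨A, b, c, h⟩
  set e : Fin (k + 1) → ℝ := Pi.single (Fin.last k) 1 with he
  have hval : ∀ s : ℝ, Real.sqrt (1 + s ^ 2) =
      A (Fin.last k) (Fin.last k) * s ^ 2 + b (Fin.last k) * s + c := fun s => by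
    have hq : qf (s • e) = 0 := by simp [qf, he, Fin.castSucc_ne_last]
    have h1 : p.u (s • e) = Real.sqrt (1 + s ^ 2) := by
      rw [u, hq, p.F_zero, he]
      simp
    rw [← h1, h (s • e)]
    simp [Fin.sum_univ_castSucc, he, Fin.castSucc_ne_last]
    ring
  have v0 := hval 0
  have v1 := hval 1
  have v1' := hval (-1)
  have v2 := hval 2
  norm_num at v0 v1 v1' v2
  have h2 := Real.sq_sqrt (show (0 : ℝ) ≤ 2 by norm_num)
  have h5 := Real.sq_sqrt (show (0 : ℝ) ≤ 5 by norm_num)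
  have e5 : Real.sqrt 5 = 4 * Real.sqrt 2 - 3 := by linarith
  rw [e5] at h5
  have e2 : Real.sqrt 2 = 3 / 2 := by nlinarith
  rw [e2] at h2
  norm_num at h2

end Profile

/-- For every `n ≥ 10` there is an entire smooth strictly convex affine maximal function
which is not a quadratic polynomial. -/
theorem exists_counterexample {n : ℕ} (hn : 10 ≤ n) :
    ∃ u : (Fin n → ℝ) → ℝ, ContDiff ℝ ∞ u ∧ (∀ x, (hess u x).PosDef) ∧
      IsAffineMaximal u ∧ ¬ IsQuadraticPoly u := by
  obtain ⟨k, rfl⟩ : ∃ k, n = k + 1 := ⟨n - 1, by omega⟩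
  obtain ⟨p⟩ := exists_profile (k := k) (by omega)
  exact ⟨p.u, p.contDiff_u, p.posDef_hess, p.isAffineMaximal_u (by omega), p.not_isQuadraticPoly_u⟩

end Vale.Agent.P252
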