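import Mathlib

/-!
# Real power series on the unit interval, and the germ at the origin of the profile
-/

namespace Vale.Agent.P252

open scoped ContDiff
open Finset

/-- Sum of a real power series. -/
noncomputable def ps (a : ℕ → ℝ) (x : ℝ) : ℝ := ∑' j, a j * x ^ j

/-- Coefficients of at most polynomial growth. -/
def PB (a : ℕ → ℝ) : Prop := ∃ (C : ℝ) (p : ℕ), 0 ≤ C ∧ ∀ j, |a j| ≤ C * ((j : ℝ) + 1) ^ p

/-- Cauchy product. -/
noncomputable def conv (a b : ℕ → ℝ) (j : ℕ) : ℝ := ∑ i ∈ range (j + 1), a i * b (j - i)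

/-- Multiplication by the variable. -/
def mulX (a : ℕ → ℝ) : ℕ → ℝ
  | 0 => 0
  | j + 1 => a j

/-- Coefficients of the derivative. -/
def dcoef (a : ℕ → ℝ) (j : ℕ) : ℝ := ((j : ℝ) + 1) * a (j + 1)

lemma summable_poly_geo (p : ℕ) {r : ℝ} (h0 : 0 ≤ r) (h1 : r < 1) :
    Summable fun j : ℕ => ((j : ℝ) + 1) ^ p * r ^ j := by
  rcases h0.eq_or_lt with h | h
  · subst h
    exact summable_of_ne_finset_zero (s := {0}) fun j hj => by
      have : j ≠ 0 := by simpa using hj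
      simp [zero_pow this]
  · have hs : Summable fun j : ℕ => ((j : ℝ) ^ p * r ^ j) :=
      summable_pow_mul_geometric_of_norm_lt_one p (by rwa [Real.norm_eq_abs, abs_of_pos h])
    have := ((summable_nat_add_iff (f := fun j : ℕ => ((j : ℝ) ^ p * r ^ j)) 1).2 hs).mul_right r⁻¹
    refine this.congr fun j => ?_
    push_cast
    field_simp
    ring

lemma PB.summable_norm {a : ℕ → ℝ} (ha : PB a) {x : ℝ} (hx : |x| < 1) :
    Summable fun j => ‖a j * x ^ j‖ := by
  obtain ⟨C, p, hC, h⟩ := ha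
  refine Summable.of_nonneg_of_le (fun j => norm_nonneg _) (fun j => ?_)
    ((summable_poly_geo p (abs_nonneg x) hx).mul_left C)
  rw [Real.norm_eq_abs, abs_mul, abs_pow, ← mul_assoc]
  exact mul_le_mul_of_nonneg_right (h j) (by positivity)

lemma PB.summable {a : ℕ → ℝ} (ha : PB a) {x : ℝ} (hx : |x| < 1) :
    Summable fun j => a j * x ^ j :=
  (ha.summable_norm hx).of_norm

lemma PB.add {a b : ℕ → ℝ} (ha : PB a) (hb : PB b) : PB (a + b) := by
  obtain ⟨C, p, hC, h⟩ := ha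
  obtain ⟨D, q, hD, h'⟩ := hb
  refine ⟨C + D, p + q, by positivity, fun j => ?_⟩
  have h1 : (1 : ℝ) ≤ (j : ℝ) + 1 := by simp
  have hp := pow_le_pow_right₀ h1 (Nat.le_add_right p q)
  have hq := pow_le_pow_right₀ h1 (Nat.le_add_left q p)
  calc |(a + b) j| ≤ |a j| + |b j| := abs_add_le _ _
    _ ≤ C * ((j : ℝ) + 1) ^ p + D * ((j : ℝ) + 1) ^ q := add_le_add (h j) (h' j)
    _ ≤ _ := by
      rw [add_mul]
      exact add_le_add (mul_le_mul_of_nonneg_left hp hC) (mul_le_mul_of_nonneg_left hq hD)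

lemma PB.smul {a : ℕ → ℝ} (ha : PB a) (r : ℝ) : PB (r • a) := by
  obtain ⟨C, p, hC, h⟩ := ha
  refine ⟨|r| * C, p, by positivity, fun j => ?_⟩
  rw [Pi.smul_apply, smul_eq_mul, abs_mul, mul_assoc]
  exact mul_le_mul_of_nonneg_left (h j) (abs_nonneg r)

lemma PB.conv {a b : ℕ → ℝ} (ha : PB a) (hb : PB b) : PB (conv a b) := by
  obtain ⟨C, p, hC, h⟩ := ha
  obtain ⟨D, q, hD, h'⟩ := hb
  refine ⟨C * D, p + q + 1, by positivity, fun j => ?_⟩
  refine le_trans (abs_sum_le_sum_abs _ _) ?_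
  have : ∀ i ∈ range (j + 1),
      |a i * b (j - i)| ≤ C * D * ((j : ℝ) + 1) ^ (p + q) := by
    intro i hi
    have hij : i ≤ j := by simpa using Finset.mem_range_succ_iff.1 hi
    have e1 : ((i : ℝ) + 1) ^ p ≤ ((j : ℝ) + 1) ^ p :=
      pow_le_pow_left₀ (by positivity) (by gcongr) p
    have e2 : (((j - i : ℕ) : ℝ) + 1) ^ q ≤ ((j : ℝ) + 1) ^ q :=
      pow_le_pow_left₀ (by positivity) (by gcongr; omega) q
    rw [abs_mul, pow_add]
    calc |a i| * |b (j - i)| ≤ (C * ((j : ℝ) + 1) ^ p) * (D * ((j : ℝ) + 1) ^ q) :=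
          mul_le_mul ((h i).trans (mul_le_mul_of_nonneg_left e1 hC))
            ((h' _).trans (mul_le_mul_of_nonneg_left e2 hD)) (abs_nonneg _) (by positivity)
      _ = _ := by ring
  refine (sum_le_card_nsmul _ _ _ this).trans_eq ?_
  rw [card_range, nsmul_eq_mul]
  push_cast
  ring

lemma PB.mulX {a : ℕ → ℝ} (ha : PB a) : PB (mulX a) := by
  obtain ⟨C, p, hC, h⟩ := ha
  refine ⟨C, p, hC, fun j => ?_⟩
  cases j with
  | zero => simpa [Vale.Agent.P252.mulX] using hC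
  | succ i =>
    refine (h i).trans (mul_le_mul_of_nonneg_left ?_ hC)
    exact pow_le_pow_left₀ (by positivity) (by push_cast; linarith) p

lemma PB.dcoef {a : ℕ → ℝ} (ha : PB a) : PB (dcoef a) := by
  obtain ⟨C, p, hC, h⟩ := ha
  refine ⟨C * 2 ^ p, p + 1, by positivity, fun j => ?_⟩
  have e : (((j + 1 : ℕ) : ℝ) + 1) ^ p ≤ 2 ^ p * ((j : ℝ) + 1) ^ p := by
    rw [← mul_pow]
    refine pow_le_pow_left₀ (by positivity) ?_ p
    push_cast
    have : (0 : ℝ) ≤ j := Nat.cast_nonneg j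
    linarith
  rw [Vale.Agent.P252.dcoef, abs_mul, abs_of_nonneg (by positivity : (0 : ℝ) ≤ (j : ℝ) + 1)]
  calc ((j : ℝ) + 1) * |a (j + 1)| ≤ ((j : ℝ) + 1) * (C * (2 ^ p * ((j : ℝ) + 1) ^ p)) :=
        mul_le_mul_of_nonneg_left ((h _).trans (mul_le_mul_of_nonneg_left e hC)) (by positivity)
    _ = _ := by ring

lemma ps_add {a b : ℕ → ℝ} (ha : PB a) (hb : PB b) {x : ℝ} (hx : |x| < 1) :
    ps (a + b) x = ps a x + ps b x := by
  rw [ps, ps, ps, ← (ha.summable hx).tsum_add (hb.summable hx)]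
  exact tsum_congr fun j => by simp [add_mul]

lemma ps_smul (a : ℕ → ℝ) (r x : ℝ) : ps (r • a) x = r * ps a x := by
  rw [ps, ps, ← tsum_mul_left]
  exact tsum_congr fun j => by simp [mul_assoc]

lemma ps_mul {a b : ℕ → ℝ} (ha : PB a) (hb : PB b) {x : ℝ} (hx : |x| < 1) :
    ps (conv a b) x = ps a x * ps b x := by
  rw [ps, ps, ps, tsum_mul_tsum_eq_tsum_sum_range_of_summable_norm (ha.summable_norm hx)
    (hb.summable_norm hx)]
  refine tsum_congr fun j => ?_
  rw [conv, Finset.sum_mul]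
  refine sum_congr rfl fun i hi => ?_
  have hij : i ≤ j := Finset.mem_range_succ_iff.1 hi
  rw [mul_mul_mul_comm, ← pow_add, Nat.add_sub_cancel' hij]

lemma ps_mulX {a : ℕ → ℝ} (ha : PB a) {x : ℝ} (hx : |x| < 1) :
    ps (mulX a) x = x * ps a x := by
  rw [ps, (ha.mulX.summable hx).tsum_eq_zero_add, ps, ← tsum_mul_left]
  simp only [mulX, zero_mul, zero_add]
  exact tsum_congr fun j => by rw [pow_succ]; ring

lemma ps_zero (a : ℕ → ℝ) : ps a 0 = a 0 := by
  rw [ps, tsum_eq_single 0]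
  · simp
  · intro j hj
    simp [zero_pow hj]

lemma hasDerivAt_ps {a : ℕ → ℝ} (ha : PB a) {x : ℝ} (hx : |x| < 1) :
    HasDerivAt (ps a) (ps (dcoef a) x) x := by
  obtain ⟨r, hxr, hr1⟩ := exists_between hx
  have hr0 : 0 < r := (abs_nonneg x).trans_lt hxr
  have hr : |r| < 1 := by rwa [abs_of_pos hr0]
  have hu : Summable fun j : ℕ => |((j : ℕ) : ℝ) * a j| * r ^ (j - 1) := by
    refine (summable_nat_add_iff 1).1 ?_
    refine ((ha.dcoef.summable_norm hr)).congr fun j => ?_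
    simp [Vale.Agent.P252.dcoef, abs_of_pos hr0]
  have key := hasDerivAt_tsum_of_isPreconnected (t := Set.Ioo (-r) r)
    (g := fun j y => a j * y ^ j) (g' := fun j y => a j * ((j : ℝ) * y ^ (j - 1))) hu
    isOpen_Ioo isPreconnected_Ioo (fun j y _ => (hasDerivAt_pow j y).const_mul (a j))
    (fun j y hy => ?_) (y₀ := 0) ⟨by linarith, hr0⟩ (ha.summable (by simp))
    (abs_lt.1 hxr)
  · refine key.congr_deriv ?_
    have hsum : Summable fun j : ℕ => a j * ((j : ℝ) * x ^ (j - 1)) := by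
      refine (summable_nat_add_iff 1).1 ?_
      refine (ha.dcoef.summable hx).congr fun j => ?_
      simp [Vale.Agent.P252.dcoef]; ring
    rw [hsum.tsum_eq_zero_add, ps]
    simp only [Nat.cast_zero, zero_mul, mul_zero, zero_add, Nat.add_sub_cancel]
    exact tsum_congr fun j => by simp [Vale.Agent.P252.dcoef]; ring
  · rw [Real.norm_eq_abs]
    have : |y| ≤ r := (abs_lt.2 hy).le
    calc |a j * ((j : ℝ) * y ^ (j - 1))| = |(j : ℝ) * a j| * |y| ^ (j - 1) := by
          rw [← abs_pow, ← abs_mul]; congr 1; ring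
      _ ≤ _ := mul_le_mul_of_nonneg_left (pow_le_pow_left₀ (abs_nonneg y) this _) (abs_nonneg _)

lemma contDiffOn_ps {a : ℕ → ℝ} (ha : PB a) : ContDiffOn ℝ ∞ (ps a) (Set.Ioo (-1) 1) := by
  rw [contDiffOn_infty]
  intro n
  induction n generalizing a with
  | zero =>
    rw [Nat.cast_zero, contDiffOn_zero]
    exact fun x hx => (hasDerivAt_ps ha (abs_lt.2 hx)).continuousAt.continuousWithinAt
  | succ n ih =>
    rw [Nat.cast_succ, contDiffOn_succ_iff_deriv_of_isOpen isOpen_Ioo]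
    refine ⟨fun x hx => (hasDerivAt_ps ha (abs_lt.2 hx)).differentiableAt.differentiableWithinAt,
      by simp, ?_⟩
    exact (ih ha.dcoef).congr fun x hx => (hasDerivAt_ps ha (abs_lt.2 hx)).deriv

end Vale.Agent.P252
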